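import Vale.Agent.P028.H132.Rows

/-!
# Sums over the deviations of one word, general weights
-/

namespace Vale.P028.RK

open Finset

variable {κ : ℝ} {Pay : ℕ → Prop} {Ch : Finset ℕ} {dv : ℕ → Prop} {μ : ℕ → ℝ} {c : ℝ} {n : ℕ}
  {X : ℕ → ℕ → ℝ} {q0 : ℝ}

/-- the sum over the deviations after `lo` with weights `X d e`, `e` the end of the phase of `d` -/
noncomputable def TG (dv : ℕ → Prop) (μ : ℕ → ℝ) (X : ℕ → ℕ → ℝ) (κ : ℝ) (Pay : ℕ → Prop) (n : ℕ)
    (Ch : Finset ℕ) (lo : ℕ) : ℝ :=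
  ∑ d ∈ open Classical in (Ico lo n).filter dv,
    Real.exp (-W dv μ d) * (X d (nx Ch n d) * Vp κ Pay Ch d)

/-- the sum over one phase is at most `q0 e ^ (-w)`, `w` the minimum of the walk -/
def PB (dv : ℕ → Prop) (μ : ℕ → ℝ) (X : ℕ → ℕ → ℝ) (q0 : ℝ) (lo e : ℕ) : Prop :=
  ∀ w, (∀ k, lo ≤ k → k ≤ e → w ≤ W dv μ k) →
    ∑ d ∈ open Classical in (Ico lo e).filter dv, Real.exp (-W dv μ d) * X d e ≤ q0 * Real.exp (-w)

theorem PB.one {lo e : ℕ} (h : PB dv μ X q0 lo e) :
    ∑ d ∈ open Classical in (Ico lo e).filter dv, Real.exp (-W dv μ d) * X d e ≤ q0 := by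
  have := h 0 fun k _ _ => W_nonneg k
  simpa using this

theorem PB.low {lo e : ℕ} (hq0 : 0 ≤ q0) (h : PB dv μ X q0 lo e) (hL : Low dv μ lo e) :
    ∑ d ∈ open Classical in (Ico lo e).filter dv, Real.exp (-W dv μ d) * X d e ≤
      21 * q0 * Real.exp (-W dv μ lo) := by
  refine (h (W dv μ lo - 3) hL).trans ?_
  have e1 : Real.exp (-(W dv μ lo - 3)) = Real.exp (-W dv μ lo) * Real.exp 3 := by
    rw [← Real.exp_add]
    ring_nf
  rw [e1]
  have h1 : 0 ≤ q0 * Real.exp (-W dv μ lo) := by positivity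
  calc q0 * (Real.exp (-W dv μ lo) * Real.exp 3) = q0 * Real.exp (-W dv μ lo) *
        Real.exp 3 := by ring
    _ ≤ q0 * Real.exp (-W dv μ lo) * 21 := mul_le_mul_of_nonneg_left exp_three h1
    _ = _ := by ring

theorem TG_insert {j lo : ℕ} (hlo : lo ≤ j) (hjn : j ≤ n) (A : Finset ℕ) (hj : ∀ s ∈ A, j < s) :
    TG dv μ X κ Pay n (insert j A) lo =
      (∏ s ∈ insert j A, open Classical in (if Pay s then 1 - κ else 1)) *
        ∑ d ∈ open Classical in (Ico lo j).filter dv, Real.exp (-W dv μ d) * X d j +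
      TG dv μ X κ Pay n A j := by
  classical
  have hjA : j ∉ A := fun h => lt_irrefl _ (hj j h)
  unfold TG
  have e1 : (Ico lo n).filter dv = (Ico lo j).filter dv ∪ (Ico j n).filter dv := by
    rw [← filter_union, Ico_union_Ico_eq_Ico hlo hjn]
  rw [e1, sum_union]
  · congr 1
    · rw [mul_sum]
      refine sum_congr rfl fun d hd => ?_
      have h1 := mem_Ico.1 (mem_filter.1 hd).1
      rw [nx_insert_lt h1.2 hjn hj, Vp_insert_lt h1.2 hj, prod_insert hjA]
      ring
    · refine sum_congr rfl fun d hd => ?_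
      have h1 := mem_Ico.1 (mem_filter.1 hd).1
      rw [nx_insert_ge h1.1, Vp_insert_ge h1.1]
  · refine disjoint_filter_filter ?_
    exact Ico_disjoint_Ico_consecutive lo j n

theorem TG_le_aux (hq0 : 0 ≤ q0) (hκ0 : 0 < κ) (hκ1 : κ ≤ 1) (Ch : Finset ℕ)
    (hCh : ∀ s ∈ Ch, s ≤ n)
    (h3 : ∀ j ∈ Ch, ¬ Pay j → Low dv μ j (nx Ch n j) ∧
      (∀ s ∈ Ch, j < s → (∀ t ∈ Ch, j < t → s ≤ t) → W dv μ j + 1 ≤ W dv μ s))
    (hPB : ∀ j ∈ Ch, ∀ e, j ≤ e → e ≤ n → (∀ s ∈ Ch, j < s → e ≤ s) → PB dv μ X q0 j e)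
    (lo : ℕ) (hlo : ∀ s ∈ Ch, lo ≤ s) (hlon : lo ≤ n)
    (hPB0 : ∀ e, lo ≤ e → e ≤ n → (∀ s ∈ Ch, e ≤ s) → PB dv μ X q0 lo e) :
    (TG dv μ X κ Pay n Ch lo ≤
      43 * q0 * (∏ s ∈ Ch, open Classical in (if Pay s then 1 - κ else 1)) +
      43 * q0 / κ * (1 - ∏ s ∈ Ch, open Classical in (if Pay s then 1 - κ else 1))) ∧
    ((∀ e, e ≤ n → (∀ s ∈ Ch, e ≤ s) → Low dv μ lo e) →
      (∀ s ∈ Ch, (∀ t ∈ Ch, s ≤ t) → W dv μ lo + 1 ≤ W dv μ s) →
      TG dv μ X κ Pay n Ch lo ≤
      42 * q0 * (∏ s ∈ Ch, open Classical in (if Pay s then 1 - κ else 1)) *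
        Real.exp (-W dv μ lo) +
      43 * q0 / κ * (1 - ∏ s ∈ Ch, open Classical in (if Pay s then 1 - κ else 1))) := by
  classical
  induction Ch using Finset.induction_on_min generalizing lo with
  | empty =>
    have e1 : TG dv μ X κ Pay n ∅ lo =
        ∑ d ∈ (Ico lo n).filter dv, Real.exp (-W dv μ d) * X d n := by
      unfold TG
      refine sum_congr rfl fun d _ => ?_
      have : nx ∅ n d = n := by simp [nx]
      rw [this]
      simp [Vp]
    have hP := hPB0 n hlon le_rfl (by simp)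
    rw [e1]
    simp only [prod_empty, sub_self, mul_zero, add_zero, mul_one]
    constructor
    · refine hP.one.trans ?_
      linarith
    · intro hL _
      refine (hP.low hq0 (hL n le_rfl (by simp))).trans ?_
      refine mul_le_mul_of_nonneg_right ?_ (Real.exp_pos _).le
      linarith
  | insert j A hj ih =>
    have hjA : j ∉ A := fun h => lt_irrefl _ (hj j h)
    have hjn : j ≤ n := hCh j (mem_insert_self _ _)
    have hloj : lo ≤ j := hlo j (mem_insert_self _ _)
    have hmin : ∀ t ∈ insert j A, j ≤ t := by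
      intro t ht
      rcases mem_insert.1 ht with rfl | ht
      · exact le_rfl
      · exact (hj t ht).le
    have hP := hPB0 j hloj hjn hmin
    rw [TG_insert hloj hjn A hj, prod_insert hjA]
    set P := ∏ s ∈ A, (if Pay s then 1 - κ else 1) with hP'
    have hPb : 0 ≤ P ∧ P ≤ 1 := prod_fac_bounds hκ0.le hκ1 Pay A
    have ih' := ih (fun s hs => hCh s (mem_insert_of_mem hs))
      (fun x hx hp => by
        obtain ⟨h4, h5⟩ := h3 x (mem_insert_of_mem hx) hp
        rw [nx_insert_ge (hj x hx).le] at h4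
        refine ⟨h4, fun s hs hxs hn => h5 s (mem_insert_of_mem hs) hxs fun t ht hxt => ?_⟩
        rcases mem_insert.1 ht with rfl | ht
        · exact absurd (hj x hx) (by omega)
        · exact hn t ht hxt)
      (fun x hx e he hen hes => hPB x (mem_insert_of_mem hx) e he hen fun s hs hxs => by
        rcases mem_insert.1 hs with rfl | hs
        · exact absurd (hj x hx) (by omega)
        · exact hes s hs hxs)
      j (fun s hs => (hj s hs).le) hjn
      (fun e he hen hes => hPB j (mem_insert_self _ _) e he hen fun s hs hjs => by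
        rcases mem_insert.1 hs with rfl | hs
        · omega
        · exact hes s hs)
    have hWlo : Real.exp (-W dv μ lo) ≤ 1 := by
      rw [Real.exp_le_one_iff]
      linarith [W_nonneg (dv := dv) (μ := μ) lo]
    have hElo := Real.exp_pos (-W dv μ lo)
    by_cases hp : Pay j
    · rw [if_pos hp]
      have i1 := ih'.1
      have k1 : 0 ≤ 1 - κ := by linarith
      have i3 : 43 * q0 / κ * (1 - (1 - κ) * P) = 43 * q0 / κ * (1 - P) + 43 * q0 * P := by
        field_simp
        ring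
      constructor
      · have i2 := mul_le_mul_of_nonneg_left hP.one (mul_nonneg k1 hPb.1)
        rw [i3]
        have i4 : (1 - κ) * P * q0 ≤ 43 * q0 * ((1 - κ) * P) := by
          have : 0 ≤ (1 - κ) * P * q0 := by have := hPb.1; positivity
          linarith
        linarith
      · intro hL _
        have i2 := mul_le_mul_of_nonneg_left (hP.low hq0 (hL j hjn hmin)) (mul_nonneg k1 hPb.1)
        rw [i3]
        have i4 : (1 - κ) * P * (21 * q0 * Real.exp (-W dv μ lo)) ≤
            42 * q0 * ((1 - κ) * P) * Real.exp (-W dv μ lo) := by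
          have : 0 ≤ (1 - κ) * P * (q0 * Real.exp (-W dv μ lo)) := by have := hPb.1; positivity
          linarith
        linarith
    · rw [if_neg hp, one_mul]
      obtain ⟨h4, h5⟩ := h3 j (mem_insert_self _ _) hp
      rw [nx_insert_ge le_rfl] at h4
      have i1 := ih'.2 (fun e he hes k hk1 hk2 => h4 k hk1 (hk2.trans (by
          rcases nx_mem_or (Ch := A) (n := n) j with h | h
          · rw [h]; exact he
          · exact hes _ h)))
        (fun s hs hst => h5 s (mem_insert_of_mem hs) (hj s hs) fun t ht hjt => by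
          rcases mem_insert.1 ht with rfl | ht
          · omega
          · exact hst t ht)
      constructor
      · have i2 := mul_le_mul_of_nonneg_left hP.one hPb.1
        have hWj : Real.exp (-W dv μ j) ≤ 1 := by
          rw [Real.exp_le_one_iff]
          linarith [W_nonneg (dv := dv) (μ := μ) j]
        have i3 : 42 * q0 * P * Real.exp (-W dv μ j) ≤ 42 * q0 * P * 1 :=
          mul_le_mul_of_nonneg_left hWj (by have := hPb.1; positivity)
        linarith
      · intro hL hs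
        have i2 := mul_le_mul_of_nonneg_left (hP.low hq0 (hL j hjn hmin)) hPb.1
        have i3 := hs j (mem_insert_self _ _) hmin
        have i4 : Real.exp (-W dv μ j) ≤ Real.exp (-W dv μ lo) / 2 :=
          (Real.exp_le_exp.2 (neg_le_neg i3)).trans exp_half
        have i5 : 42 * q0 * P * Real.exp (-W dv μ j) ≤ 42 * q0 * P * (Real.exp (-W dv μ lo) / 2) :=
          mul_le_mul_of_nonneg_left i4 (by have := hPb.1; positivity)
        linarith

/-- THE SUM OVER THE DEVIATIONS, general weights -/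
theorem TG_le (hμ : ∀ k, 0 ≤ μ k) (hq0 : 0 ≤ q0) (hκ0 : 0 < κ) (hκ1 : κ ≤ 1)
    (H : Pos dv μ n Ch Pay)
    (hPB : ∀ j ∈ Ch, ∀ e, j ≤ e → e ≤ n → (∀ s ∈ Ch, j < s → e ≤ s) → PB dv μ X q0 j e)
    (hPB0 : ∀ e, e ≤ n → (∀ s ∈ Ch, e ≤ s) → PB dv μ X q0 0 e) :
    TG dv μ X κ Pay n Ch 0 ≤ 86 * q0 / κ := by
  classical
  have h := (TG_le_aux hq0 hκ0 hκ1 Ch H.le (H.h3 hμ) hPB 0 (fun _ _ => Nat.zero_le _)
    (Nat.zero_le _) (fun e _ => hPB0 e)).1
  have hPb := prod_fac_bounds hκ0.le hκ1 Pay Ch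
  have h4 : 43 * q0 * ∏ s ∈ Ch, (if Pay s then 1 - κ else 1) ≤ 43 * q0 * 1 :=
    mul_le_mul_of_nonneg_left hPb.2 (by positivity)
  have h5 : 43 * q0 / κ * (1 - ∏ s ∈ Ch, (if Pay s then 1 - κ else 1)) ≤ 43 * q0 / κ * 1 :=
    mul_le_mul_of_nonneg_left (by linarith) (by positivity)
  have h6 : 43 * q0 ≤ 43 * q0 / κ := by
    rw [le_div_iff₀ hκ0]
    nlinarith
  have h7 : 86 * q0 / κ = 43 * q0 / κ + 43 * q0 / κ := by
    rw [← add_div]
    ring
  linarith

end Vale.P028.RK
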