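import Vale.Agent.P028.F53.Prod
import Vale.Agent.P028.H132.Path

/-!
# The weighted maximal inequality for reversed martingales on a finite product space
-/

namespace Vale.P028.RK

open Finset Vale.P028.RN

variable {n : ℕ} {L : Type*}

theorem mix_mix_le {s k : ℕ} (h : s ≤ k) (z y ω : Fin n → L) :
    mix k z (mix s y ω) = mix k z ω := by
  funext j
  unfold mix
  split_ifs with h1 h2
  · rfl
  · omega
  · rfl

variable [Fintype L] {π : Fin n → L → ℝ}

theorem cE_mix {s k : ℕ} (h : s ≤ k) (φ : (Fin n → L) → ℝ) (y ω : Fin n → L) :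
    cE π k φ (mix s y ω) = cE π k φ ω := by
  unfold cE
  refine sum_congr rfl fun z _ => ?_
  rw [mix_mix_le h]

/-- the conditional expectation is selfadjoint -/
theorem Ex_cE_mul (h1 : ∀ j, ∑ m, π j m = 1) {s : ℕ} (φ g : (Fin n → L) → ℝ)
    (hg : ∀ z ω, g (mix s z ω) = g ω) :
    Ex π (fun ω => cE π s φ ω * g ω) = Ex π (fun ω => φ ω * g ω) := by
  rw [← Ex_cE π h1 s (fun ω => φ ω * g ω)]
  congr 1
  funext ω
  unfold cE
  rw [sum_mul]
  refine sum_congr rfl fun z _ => ?_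
  simp only [hg]
  ring

/-- the running maximum of the conditional expectations -/
noncomputable def Mx (π : Fin n → L → ℝ) (φ : (Fin n → L) → ℝ) : ℕ → (Fin n → L) → ℝ
  | 0 => cE π n φ
  | t + 1 => fun ω => max (Mx π φ t ω) (cE π (n - (t + 1)) φ ω)

theorem Mx_mix (φ : (Fin n → L) → ℝ) (t : ℕ) {s : ℕ} (hs : s + t ≤ n) (y ω : Fin n → L) :
    Mx π φ t (mix s y ω) = Mx π φ t ω := by
  induction t with
  | zero => exact cE_mix (by omega) _ _ _
  | succ t ih =>
    change max _ _ = max _ _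
    rw [ih (by omega), cE_mix (by omega)]

theorem Mx_nonneg (hπ : ∀ j m, 0 ≤ π j m) {φ : (Fin n → L) → ℝ} (hφ : ∀ ω, 0 ≤ φ ω) (t : ℕ)
    (ω : Fin n → L) : 0 ≤ Mx π φ t ω := by
  induction t with
  | zero => exact cE_nonneg hπ hφ ω
  | succ t ih => exact ih.trans (le_max_left _ _)

theorem le_Mx (φ : (Fin n → L) → ℝ) {s t : ℕ} (h1 : s ≤ n) (h2 : n ≤ s + t) (ω : Fin n → L) :
    cE π s φ ω ≤ Mx π φ t ω := by
  induction t with
  | zero =>
    have : s = n := by omega
    rw [this]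
    exact le_rfl
  | succ t ih =>
    rcases Nat.lt_or_ge (s + t) n with h | h
    · have : s = n - (t + 1) := by omega
      rw [this]
      exact le_max_right _ _
    · exact (ih h).trans (le_max_left _ _)

/-- `‖M‖_{3/2}`, first form -/
theorem doob_aux (hπ : ∀ j m, 0 ≤ π j m) (h1 : ∀ j, ∑ m, π j m = 1) {φ : (Fin n → L) → ℝ}
    (hφ : ∀ ω, 0 ≤ φ ω) {t : ℕ} (ht : t ≤ n) :
    Ex π (fun ω => Real.sqrt (Mx π φ t ω) ^ 3) ≤
      3 * Ex π (fun ω => φ ω * Real.sqrt (Mx π φ t ω)) := by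
  induction t with
  | zero =>
    have e1 : Ex π (fun ω => φ ω * Real.sqrt (Mx π φ 0 ω)) =
        Ex π (fun ω => Real.sqrt (Mx π φ 0 ω) ^ 3) := by
      rw [← Ex_cE_mul (s := n) h1 φ (fun ω => Real.sqrt (Mx π φ 0 ω))
        (fun z ω => by simp only [Mx_mix φ 0 (le_refl n)])]
      congr 1
      funext ω
      have h2 := Mx_nonneg hπ hφ 0 ω
      have h3 := Real.sq_sqrt h2
      have h4 : cE π n φ ω = Mx π φ 0 ω := rfl
      rw [h4]
      calc Mx π φ 0 ω * Real.sqrt (Mx π φ 0 ω)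
          = Real.sqrt (Mx π φ 0 ω) ^ 2 * Real.sqrt (Mx π φ 0 ω) := by rw [h3]
        _ = _ := by ring
    rw [e1]
    have : 0 ≤ Ex π (fun ω => Real.sqrt (Mx π φ 0 ω) ^ 3) :=
      Ex_nonneg hπ fun ω => by positivity
    linarith
  | succ t ih =>
    have ih := ih (by omega)
    set s := n - (t + 1) with hs
    have e1 : Ex π (fun ω => cE π s φ ω *
        (Real.sqrt (Mx π φ (t + 1) ω) - Real.sqrt (Mx π φ t ω))) =
        Ex π (fun ω => φ ω * (Real.sqrt (Mx π φ (t + 1) ω) - Real.sqrt (Mx π φ t ω))) := by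
      refine Ex_cE_mul h1 φ _ fun z ω => ?_
      rw [Mx_mix φ (t + 1) (by omega), Mx_mix φ t (by omega)]
    have e2 : Ex π (fun ω => Real.sqrt (Mx π φ (t + 1) ω) ^ 3) ≤
        Ex π (fun ω => Real.sqrt (Mx π φ t ω) ^ 3 + 3 * (cE π s φ ω *
          (Real.sqrt (Mx π φ (t + 1) ω) - Real.sqrt (Mx π φ t ω)))) := by
      refine Ex_mono hπ fun ω => ?_
      have h2 := Mx_nonneg hπ hφ t ω
      have h3 := cE_nonneg hπ (s := s) hφ ω
      have e3 : Mx π φ (t + 1) ω = max (Mx π φ t ω) (cE π s φ ω) := rfl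
      rcases le_total (cE π s φ ω) (Mx π φ t ω) with h | h
      · rw [e3, max_eq_left h]
        simp
      · rw [e3, max_eq_right h]
        have h4 : Real.sqrt (Mx π φ t ω) ≤ Real.sqrt (cE π s φ ω) := Real.sqrt_le_sqrt h
        have h5 := Real.sqrt_nonneg (Mx π φ t ω)
        have h6 := Real.sq_sqrt h3
        set a := Real.sqrt (cE π s φ ω)
        set b := Real.sqrt (Mx π φ t ω)
        rw [← h6]
        nlinarith [mul_nonneg (sub_nonneg.2 h4) (mul_nonneg h5 (h5.trans h4)),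
          mul_nonneg (sub_nonneg.2 h4) (mul_nonneg (sub_nonneg.2 h4) (h5.trans h4)),
          mul_nonneg (sub_nonneg.2 h4) (mul_nonneg (sub_nonneg.2 h4) h5)]
    rw [Ex_add, Ex_mul, e1] at e2
    have e4 : Ex π (fun ω => φ ω * (Real.sqrt (Mx π φ (t + 1) ω) - Real.sqrt (Mx π φ t ω))) =
        Ex π (fun ω => φ ω * Real.sqrt (Mx π φ (t + 1) ω)) -
        Ex π (fun ω => φ ω * Real.sqrt (Mx π φ t ω)) := by
      rw [← Ex_sub]
      congr 1
      funext ω
      ring
    rw [e4] at e2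
    linarith

theorem cube_ineq {a b : ℝ} (ha : 0 ≤ a) (hb : 0 ≤ b) : 3 * (a ^ 2 * b) ≤ b ^ 3 / 2 + 3 * a ^ 3 := by
  have h1 : 0 ≤ (b - 3 / 2 * a) ^ 2 * (b + 3 * a) := by positivity
  have h2 : 0 ≤ b ^ 3 := by positivity
  nlinarith

theorem doob (hπ : ∀ j m, 0 ≤ π j m) (h1 : ∀ j, ∑ m, π j m = 1) (σ : (Fin n → L) → ℝ) :
    Ex π (fun ω => Real.sqrt (Mx π (fun ω => σ ω ^ 4) n ω) ^ 3) ≤
      6 * Ex π (fun ω => σ ω ^ 6) := by
  have h := doob_aux hπ h1 (φ := fun ω => σ ω ^ 4) (fun ω => by positivity) (le_refl n)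
  have h2 : 3 * Ex π (fun ω => σ ω ^ 4 * Real.sqrt (Mx π (fun ω => σ ω ^ 4) n ω)) ≤
      Ex π (fun ω => 1 / 2 * Real.sqrt (Mx π (fun ω => σ ω ^ 4) n ω) ^ 3 + 3 * σ ω ^ 6) := by
    rw [← Ex_mul]
    refine Ex_mono hπ fun ω => ?_
    have := cube_ineq (a := σ ω ^ 2) (b := Real.sqrt (Mx π (fun ω => σ ω ^ 4) n ω))
      (by positivity) (Real.sqrt_nonneg _)
    have e1 : (σ ω ^ 2) ^ 2 = σ ω ^ 4 := by ring
    have e2 : (σ ω ^ 2) ^ 3 = σ ω ^ 6 := by ring
    rw [e1, e2] at this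
    linarith
  rw [Ex_add, Ex_mul, Ex_mul] at h2
  linarith

/-! ### The walk of a word -/

/-- the word `ω` deviates at the step `k` -/
def dvw (o : Fin n → L) (ω : Fin n → L) (k : ℕ) : Prop := ∃ h : k < n, ω ⟨k, h⟩ ≠ o ⟨k, h⟩

omit [Fintype L] in
theorem dvw_mix_lt {o : Fin n → L} {i k : ℕ} (h : k < i) (z ω : Fin n → L) :
    dvw o (mix i z ω) k ↔ dvw o z k := by
  unfold dvw mix
  simp only [h, if_true]

omit [Fintype L] in
theorem dvw_mix_ge {o : Fin n → L} {i k : ℕ} (h : i ≤ k) (z ω : Fin n → L) :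
    dvw o (mix i z ω) k ↔ dvw o ω k := by
  unfold dvw mix
  simp only [not_lt.2 h, if_false]

theorem W_congr {dv dv' : ℕ → Prop} {μ : ℕ → ℝ} {i : ℕ} (h : ∀ k < i, (dv k ↔ dv' k)) :
    W dv μ i = W dv' μ i := by
  classical
  induction i with
  | zero => rfl
  | succ i ih =>
    have h1 := ih fun k hk => h k (by omega)
    by_cases hd : dv i
    · rw [W_succ_dev hd, W_succ_dev ((h i (Nat.lt_succ_self i)).1 hd), h1]
    · rw [W_succ_not hd, W_succ_not (fun h' => hd ((h i (Nat.lt_succ_self i)).2 h')), h1]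

omit [Fintype L] in
theorem W_mix {o : Fin n → L} {μ : ℕ → ℝ} {i k : ℕ} (h : k ≤ i) (z ω : Fin n → L) :
    W (dvw o (mix i z ω)) μ k = W (dvw o z) μ k :=
  W_congr fun _ hj => dvw_mix_lt (lt_of_lt_of_le hj h) z ω

/-- exponential moment of the walk -/
theorem Ex_exp_W (hπ : ∀ j m, 0 ≤ π j m) (h1 : ∀ j, ∑ m, π j m = 1) {o : Fin n → L} {μ : ℕ → ℝ}
    (hμ : ∀ k, 0 ≤ μ k) (hμ1 : ∀ k, μ k ≤ 1 / 4) {ε : ℝ} (hε : ε * Real.exp 24 ≤ 1)
    (hdev : ∀ j : Fin n, 1 - π j (o j) ≤ ε * μ j) {i : ℕ} (hi : i ≤ n) :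
    Ex π (fun z => Real.exp (4 * W (dvw o z) μ i)) ≤ 4 := by
  classical
  induction i with
  | zero =>
    have : ∀ z : Fin n → L, W (dvw o z) μ 0 = 0 := fun z => rfl
    simp only [this, mul_zero, Real.exp_zero]
    rw [Ex_const π h1]
    norm_num
  | succ i ih =>
    have ih := ih (by omega)
    set j : Fin n := ⟨i, by omega⟩ with hj
    have hdj : ∀ (z : Fin n → L), dvw o z i ↔ z j ≠ o j := by
      intro z
      unfold dvw
      constructor
      · rintro ⟨h, h2⟩
        exact h2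
      · intro h
        exact ⟨by omega, h⟩
    have hWu : ∀ (z : Fin n → L) (m : L), W (dvw o (Function.update z j m)) μ i = W (dvw o z) μ i := by
      intro z m
      refine W_congr fun k hk => ?_
      unfold dvw
      have : ∀ h : k < n, Function.update z j m ⟨k, h⟩ = z ⟨k, h⟩ := fun h => by
        rw [Function.update_of_ne]
        intro h2
        rw [hj, Fin.mk.injEq] at h2
        omega
      simp only [this]
    set X := Ex π (fun z => Real.exp (4 * W (dvw o z) μ i)) with hX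
    have hX0 : 0 ≤ X := Ex_nonneg hπ fun ω => (Real.exp_pos _).le
    set x := μ i with hx
    have hx0 : 0 ≤ x := hμ i
    have hx1 : x ≤ 1 / 4 := hμ1 i
    -- the two kinds of labels
    have b1 : ∀ m, m ≠ o j → Ex π (fun z => Real.exp (4 * W (dvw o (Function.update z j m)) μ
        (i + 1))) = Real.exp 24 * X := by
      intro m hm
      rw [hX, ← Ex_mul]
      congr 1
      funext z
      rw [W_succ_dev ((hdj _).2 (by rw [Function.update_self]; exact hm)), hWu, ← Real.exp_add]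
      ring_nf
    have hexp : Real.exp (-(4 * x)) ≤ 1 - 2 * x := by
      have h2 : Real.exp (-(4 * x)) * (1 + 4 * x) ≤ 1 := by
        have h3 := Real.add_one_le_exp (4 * x)
        calc Real.exp (-(4 * x)) * (1 + 4 * x) ≤ Real.exp (-(4 * x)) * Real.exp (4 * x) :=
              mul_le_mul_of_nonneg_left (by linarith) (Real.exp_pos _).le
          _ = 1 := by rw [← Real.exp_add]; simp
      have h4 : 1 ≤ (1 - 2 * x) * (1 + 4 * x) := by nlinarith
      nlinarith [Real.exp_pos (-(4 * x))]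
    have hexp' : 1 - 4 * x ≤ Real.exp (-(4 * x)) := by
      have := Real.add_one_le_exp (-(4 * x))
      linarith
    have b2 : Ex π (fun z => Real.exp (4 * W (dvw o (Function.update z j (o j))) μ (i + 1))) ≤
        (1 - 2 * x) * X + 4 * x := by
      have h3 : Ex π (fun z => Real.exp (4 * W (dvw o (Function.update z j (o j))) μ (i + 1))) ≤
          Ex π (fun z => (Real.exp (-(4 * x))) * Real.exp (4 * W (dvw o z) μ i) +
            (1 - Real.exp (-(4 * x)))) := by
        refine Ex_mono hπ fun z => ?_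
        have h4 : ¬ dvw o (Function.update z j (o j)) i := by
          rw [hdj, Function.update_self]
          exact not_not.2 rfl
        rw [W_succ_not h4, hWu]
        have h5 := W_nonneg (dv := dvw o z) (μ := μ) i
        have h6 : 1 ≤ Real.exp (4 * W (dvw o z) μ i) := Real.one_le_exp (by linarith)
        have h7 : Real.exp (-(4 * x)) ≤ 1 := by
          rw [Real.exp_le_one_iff]
          linarith
        have h8 := Real.exp_pos (-(4 * x))
        rcases le_total (W (dvw o z) μ i - μ i) 0 with h | h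
        · rw [max_eq_left h, mul_zero, Real.exp_zero]
          nlinarith
        · rw [max_eq_right h]
          have e1 : Real.exp (4 * (W (dvw o z) μ i - μ i)) =
              Real.exp (-(4 * x)) * Real.exp (4 * W (dvw o z) μ i) := by
            rw [← Real.exp_add, hx]
            ring_nf
          rw [e1]
          linarith
      rw [Ex_add, Ex_mul, Ex_const π h1] at h3
      nlinarith
    rw [Ex_coord π h1 j]
    rw [← add_sum_erase univ _ (mem_univ (o j))]
    have b3 : ∑ m ∈ univ.erase (o j), π j m * Ex π (fun z => Real.exp (4 * W (dvw o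
        (Function.update z j m)) μ (i + 1))) = (1 - π j (o j)) * (Real.exp 24 * X) := by
      have h3 : ∑ m ∈ univ.erase (o j), π j m = 1 - π j (o j) := by
        have := h1 j
        rw [← add_sum_erase univ _ (mem_univ (o j))] at this
        linarith
      rw [← h3, sum_mul]
      refine sum_congr rfl fun m hm => ?_
      rw [b1 m (ne_of_mem_erase hm)]
    rw [b3]
    have h5 : π j (o j) ≤ 1 := by
      have h6 := h1 j
      rw [← h6]
      exact single_le_sum (f := fun m => π j m) (fun m _ => hπ j m) (mem_univ (o j))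
    have h7 : π j (o j) * Ex π (fun z => Real.exp (4 * W (dvw o (Function.update z j (o j))) μ
        (i + 1))) ≤ 1 * ((1 - 2 * x) * X + 4 * x) := by
      refine mul_le_mul h5 b2 (Ex_nonneg hπ fun _ => (Real.exp_pos _).le) zero_le_one
    have h8 : (1 - π j (o j)) * (Real.exp 24 * X) ≤ ε * x * (Real.exp 24 * X) :=
      mul_le_mul_of_nonneg_right (hdev j) (by positivity)
    have h9 : ε * x * (Real.exp 24 * X) ≤ x * X := by
      have : ε * x * (Real.exp 24 * X) = (ε * Real.exp 24) * (x * X) := by ring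
      rw [this]
      have := mul_nonneg hx0 hX0
      nlinarith
    nlinarith

/-! ### The weighted maximal function -/

theorem amgm {A b : ℝ} (hA : 0 ≤ A) (hb : 0 ≤ b) : A * b ^ 3 ≤ A ^ 4 / 4 + 3 / 4 * b ^ 4 := by
  have h : 0 ≤ (A - b) ^ 2 * (A ^ 2 + 2 * A * b + 3 * b ^ 2) := by positivity
  nlinarith

/-- the weighted maximal function of `σ ^ 3` -/
noncomputable def Dm (π : Fin n → L → ℝ) (σ : (Fin n → L) → ℝ) (ω : Fin n → L) : ℝ :=
  7 / 4 * Real.sqrt (Real.sqrt (Mx π (fun ω => σ ω ^ 4) n ω)) ^ 3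

theorem Dm_nonneg (σ : (Fin n → L) → ℝ) (ω : Fin n → L) : 0 ≤ Dm π σ ω := by
  unfold Dm
  positivity

theorem Dm_sq (hπ : ∀ j m, 0 ≤ π j m) (h1 : ∀ j, ∑ m, π j m = 1) (σ : (Fin n → L) → ℝ) : Ex π (fun ω => Dm π σ ω ^ 2) ≤ 19 * Ex π (fun ω => σ ω ^ 6) := by
  have e : ∀ ω, Dm π σ ω ^ 2 = 49 / 16 * Real.sqrt (Mx π (fun ω => σ ω ^ 4) n ω) ^ 3 := by
    intro ω
    unfold Dm
    have h2 := Real.sq_sqrt (Real.sqrt_nonneg (Mx π (fun ω => σ ω ^ 4) n ω))
    set u := Real.sqrt (Mx π (fun ω => σ ω ^ 4) n ω)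
    calc (7 / 4 * Real.sqrt u ^ 3) ^ 2 = 49 / 16 * (Real.sqrt u ^ 2) ^ 3 := by ring
      _ = _ := by rw [h2]
  simp only [e]
  rw [Ex_mul]
  have h2 := doob hπ h1 σ
  have h3 : 0 ≤ Ex π (fun ω => σ ω ^ 6) := Ex_nonneg hπ fun ω => by positivity
  linarith

/-- (D) the weighted averages are dominated -/
theorem cE_exp_W_le (hπ : ∀ j m, 0 ≤ π j m) (h1 : ∀ j, ∑ m, π j m = 1) {o : Fin n → L} {μ : ℕ → ℝ}
    (hμ : ∀ k, 0 ≤ μ k) (hμ1 : ∀ k, μ k ≤ 1 / 4) {ε : ℝ} (hε : ε * Real.exp 24 ≤ 1)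
    (hdev : ∀ j : Fin n, 1 - π j (o j) ≤ ε * μ j) {i : ℕ} (hi : i ≤ n) {σ : (Fin n → L) → ℝ}
    (hσ : ∀ ω, 0 ≤ σ ω) (ω : Fin n → L) :
    cE π i (fun r => Real.exp (W (dvw o r) μ i) * σ r ^ 3) ω ≤ Dm π σ ω := by
  set X := cE π i (fun r => σ r ^ 4) ω with hX
  set M := Mx π (fun ω => σ ω ^ 4) n ω with hM
  have hXM : X ≤ M := le_Mx _ hi (by omega) ω
  have hM0 : 0 ≤ M := Mx_nonneg hπ (fun ω => by positivity) n ω
  -- for every `v > 0`
  have key : ∀ v : ℝ, 0 < v →
      cE π i (fun r => Real.exp (W (dvw o r) μ i) * σ r ^ 3) ω ≤ v ^ 3 + 3 / 4 * X / v := by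
    intro v hv
    have h2 : cE π i (fun r => Real.exp (W (dvw o r) μ i) * σ r ^ 3) ω ≤
        cE π i (fun r => v ^ 3 / 4 * Real.exp (4 * W (dvw o r) μ i) + 3 / 4 / v * σ r ^ 4) ω := by
      refine cE_mono hπ (fun r => ?_) ω
      have h3 := amgm (A := v * Real.exp (W (dvw o r) μ i)) (b := σ r) (by positivity) (hσ r)
      have e1 : (v * Real.exp (W (dvw o r) μ i)) ^ 4 = v ^ 4 * Real.exp (4 * W (dvw o r) μ i) := by
        rw [mul_pow, ← Real.exp_nat_mul]
        norm_num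
      rw [e1] at h3
      have h4 : v * (Real.exp (W (dvw o r) μ i) * σ r ^ 3) ≤
          v * (v ^ 3 / 4 * Real.exp (4 * W (dvw o r) μ i) + 3 / 4 / v * σ r ^ 4) := by
        have e2 : v * (v ^ 3 / 4 * Real.exp (4 * W (dvw o r) μ i) + 3 / 4 / v * σ r ^ 4) =
            v ^ 4 * Real.exp (4 * W (dvw o r) μ i) / 4 + 3 / 4 * σ r ^ 4 := by
          field_simp
        rw [e2]
        linarith
      exact le_of_mul_le_mul_left h4 hv
    have h5 : cE π i (fun r => v ^ 3 / 4 * Real.exp (4 * W (dvw o r) μ i) +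
        3 / 4 / v * σ r ^ 4) ω = v ^ 3 / 4 * Ex π (fun z => Real.exp (4 * W (dvw o z) μ i)) +
        3 / 4 / v * X := by
      unfold cE Ex
      rw [hX]
      unfold cE
      rw [mul_sum, mul_sum, ← sum_add_distrib]
      refine sum_congr rfl fun z _ => ?_
      simp only [W_mix (le_refl i)]
      ring
    rw [h5] at h2
    have h6 := Ex_exp_W hπ h1 hμ hμ1 hε hdev hi
    have h7 : v ^ 3 / 4 * Ex π (fun z => Real.exp (4 * W (dvw o z) μ i)) ≤ v ^ 3 / 4 * 4 :=
      mul_le_mul_of_nonneg_left h6 (by positivity)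
    have h8 : 3 / 4 / v * X = 3 / 4 * X / v := by ring
    linarith
  unfold Dm
  rcases hM0.eq_or_lt with h0 | h0
  · -- `M = 0`
    have hX0 : X ≤ 0 := by rw [← h0] at hXM; exact hXM
    have h2 : ∀ v : ℝ, 0 < v →
        cE π i (fun r => Real.exp (W (dvw o r) μ i) * σ r ^ 3) ω ≤ v ^ 3 := by
      intro v hv
      have h3 := key v hv
      have h4 : 3 / 4 * X / v ≤ 0 := div_nonpos_of_nonpos_of_nonneg (by linarith) hv.le
      linarith
    have h3 : cE π i (fun r => Real.exp (W (dvw o r) μ i) * σ r ^ 3) ω ≤ 0 := by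
      refine le_of_forall_pos_le_add fun e he => ?_
      rw [zero_add]
      have h4 := h2 (min 1 e) (lt_min one_pos he)
      have h5 : 0 < min 1 e := lt_min one_pos he
      have h6 : min 1 e ≤ 1 := min_le_left _ _
      have h7 : min 1 e ^ 3 ≤ min 1 e := by nlinarith [mul_pos h5 h5]
      exact h4.trans (h7.trans (min_le_right _ _))
    exact h3.trans (by positivity)
  · set u := Real.sqrt M with hu
    have hu0 : 0 < u := Real.sqrt_pos.2 h0
    set v := Real.sqrt u with hv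
    have hv0 : 0 < v := Real.sqrt_pos.2 hu0
    have e1 : u ^ 2 = M := Real.sq_sqrt hM0
    have e2 : v ^ 2 = u := Real.sq_sqrt hu0.le
    have e3 : v ^ 4 = M := by rw [← e1, ← e2]; ring
    have h3 := key v hv0
    have h4 : 3 / 4 * X / v ≤ 3 / 4 * v ^ 3 := by
      rw [div_le_iff₀ hv0]
      have : 3 / 4 * v ^ 3 * v = 3 / 4 * v ^ 4 := by ring
      rw [this, e3]
      linarith
    linarith

end Vale.P028.RK
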