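import Vale.Agent.P028.MathlibUsed
import Vale.Agent.P028.H132.Rank
attribute [-instance] ProperSMul.toContinuousSMul IsTopologicalTorsor.toContinuousSMul IdemSemiring.toCanonicallyOrderedAdd IdemSemiring.toMulLeftMono IdemSemiring.toMulRightMono AddQuantale.instAddLeftMono AddQuantale.instAddRightMono Quantale.instMulLeftMono Quantale.instMulRightMono FiniteDimensional.rclike_to_real IsScalarTower.complexToReal FiniteDimensional.complexToReal

/-!
# The index of the phases which do not pay

A phase which does not pay is determined by its rank and by its number among the phases which do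
not pay and have the same rank; the reflected walk is at least three times this number.
-/

namespace Vale.P028.SK

open Finset CF RN H669 RK

open Classical in
/-- the number of the phase `s` among the phases which do not pay and have the same rank -/
noncomputable def hNP (g : Cfg) (c1 : ℝ) (x0 x s : ℕ) : ℕ :=
  ((NwP g x).filter (fun t => t ≤ s ∧ rkx g c1 x0 x t = rkx g c1 x0 x s ∧
    ¬ Pyw g c1 x t)).card

variable {g : Cfg}

theorem hNP_pos {c1 : ℝ} {x0 x s : ℕ} (hs : s ∈ NwP g x) (hp : ¬ Pyw g c1 x s) :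
    1 ≤ hNP g c1 x0 x s := by
  classical
  unfold hNP
  exact card_pos.2 ⟨s, mem_filter.2 ⟨hs, le_rfl, rfl, hp⟩⟩

theorem hNP_lt {c1 : ℝ} {x0 x s t : ℕ} (ht : t ∈ NwP g x) (hpt : ¬ Pyw g c1 x t)
    (h : rkx g c1 x0 x s = rkx g c1 x0 x t) (hst : s < t) :
    hNP g c1 x0 x s < hNP g c1 x0 x t := by
  classical
  unfold hNP
  refine card_lt_card ⟨fun a ha => ?_, fun hcon => ?_⟩
  · obtain ⟨h1, h2, h3, h4⟩ := mem_filter.1 ha
    exact mem_filter.2 ⟨h1, h2.trans hst.le, h3.trans h, h4⟩
  · have h1 := hcon (mem_filter.2 ⟨ht, le_rfl, rfl, hpt⟩)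
    have := (mem_filter.1 h1).2.1
    omega

/-- **a phase which does not pay is determined by its rank and its number** -/
theorem hNP_inj {c1 : ℝ} {x0 x s t : ℕ} (hs : s ∈ NwP g x) (ht : t ∈ NwP g x)
    (hps : ¬ Pyw g c1 x s) (hpt : ¬ Pyw g c1 x t) (h : rkx g c1 x0 x s = rkx g c1 x0 x t)
    (h' : hNP g c1 x0 x s = hNP g c1 x0 x t) : s = t := by
  rcases lt_trichotomy s t with h1 | h1 | h1
  · have := hNP_lt ht hpt h h1
    omega
  · exact h1
  · have := hNP_lt hs hps h.symm h1
    omega

/-- the masses of a phase which does not pay -/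
theorem ms_le_of_np {c1 : ℝ} (h1 : 0 < c1) (hz : 1 ≤ c1 * zs g) {x s b : ℕ}
    (hp : ¬ Pyw g c1 x s) (hsb : s ≤ b) (hbn : b ≤ nxw g x s) :
    ms (muw g c1 x) s b ≤ 2 * nd (fun k => uw g x k = true) s b + 1 / 4 := by
  have hμ : ∀ j, 0 ≤ muw g c1 x j := muw_nonneg h1.le x
  have hμ1 : ∀ j, muw g c1 x j ≤ 1 := fun j => by
    have := muw_le h1 one_pos hz x j
    simpa using this
  have h2 : H669.Wk (muw g c1 x) (uw g x) s b < 1 / 4 := by
    by_contra hcon
    exact hp ⟨b, hsb, hbn, not_lt.1 hcon⟩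
  unfold H669.Wk at h2
  have h3 : ms (muw g c1 x) s b ≤ eM (muw g c1 x) (uw g x) s b + dN (uw g x) s b := by
    unfold ms eM dN
    rw [card_filter]
    push_cast
    rw [← sum_add_distrib]
    refine sum_le_sum fun j _ => ?_
    by_cases hu : uw g x j = true
    · rw [if_pos hu, if_pos hu]
      linarith [hμ1 j]
    · rw [if_neg hu, if_neg hu]
      linarith
  rw [nd_eq_dN]
  linarith

theorem one_le_nd {dv : ℕ → Prop} {s t k : ℕ} (h1 : s ≤ k) (h2 : k < t) (hk : dv k) :
    1 ≤ nd dv s t := by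
  classical
  unfold nd
  calc (1 : ℝ) = if dv k then (1 : ℝ) else 0 := by rw [if_pos hk]
    _ ≤ _ := single_le_sum (f := fun k => if dv k then (1 : ℝ) else 0)
      (fun j _ => by split_ifs <;> norm_num) (mem_Ico.2 ⟨h1, h2⟩)

/-- the walk at the start of a phase which does not pay -/
theorem W_hNP (hJ : JsOK g.K g.Js) (hX : g.Js ≤ g.X) (hV : g.V ⊆ Icc 1 (N g)) {c1 : ℝ}
    (h1 : 0 < c1) (hz : 1 ≤ c1 * zs g) {x0 x : ℕ} (hx : x ∈ g.V) :
    ∀ s : ℕ, s ∈ NwP g x → s ≤ N g - x0 → ¬ Pyw g c1 x s →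
      3 * ((hNP g c1 x0 x s : ℝ) - 1) ≤ RK.W (fun k => uw g x k = true) (muw g c1 x) s := by
  classical
  have hμ : ∀ j, 0 ≤ muw g c1 x j := muw_nonneg h1.le x
  intro s
  induction s using Nat.strong_induction_on with
  | _ s ih =>
    intro hs hsN hps
    set A := (NwP g x).filter (fun t => t < s ∧ rkx g c1 x0 x t = rkx g c1 x0 x s ∧
      ¬ Pyw g c1 x t) with hA
    rcases A.eq_empty_or_nonempty with hE | hne
    · have h2 : hNP g c1 x0 x s ≤ 1 := by
        unfold hNP
        refine (card_le_card (t := {s}) fun t ht => ?_).trans (card_singleton s).le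
        obtain ⟨h3, h4, h5, h6⟩ := mem_filter.1 ht
        rcases h4.eq_or_lt with h7 | h7
        · exact mem_singleton.2 h7
        · have : t ∈ A := mem_filter.2 ⟨h3, h7, h5, h6⟩
          rw [hE] at this
          exact absurd this (notMem_empty t)
      have h3 : (hNP g c1 x0 x s : ℝ) ≤ 1 := by exact_mod_cast h2
      have h4 := W_nonneg (dv := fun k => uw g x k = true) (μ := muw g c1 x) s
      linarith
    · obtain ⟨t, htA, htmax⟩ := A.exists_max_image id hne
      obtain ⟨ht, hts, hrk, hpt⟩ := mem_filter.1 htA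
      -- the phase of `t` ends at `s`
      have hnx : nxw g x t = s := by
        have h3 : nxw g x t ≤ s := nxw_le_of_mem hs hts
        rcases h3.eq_or_lt with h4 | h4
        · exact h4
        exfalso
        have h5 : nxw g x t ∈ NwP g x := by
          rcases nx_mem_or (Ch := NwP g x) (n := N g) t with h6 | h6
          · have := NwP_le hs
            unfold nxw at h4
            omega
          · exact h6
        have h6 : t < nxw g x t := lt_nxw (by have := NwP_le hs; omega)
        have h7 : rkx g c1 x0 x (nxw g x t) = rkx g c1 x0 x s :=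
          le_antisymm ((rkx_anti h6.le).trans hrk.le) (rkx_anti h4.le)
        by_cases hp : Pyw g c1 x (nxw g x t)
        · have h8 : nxw g x t ∈ PyX g c1 x0 x :=
            mem_PyX.2 ⟨h5, (nxw_le_of_mem hs h4).trans hsN, hp⟩
          have := rkx_lt h8 h4
          omega
        · have h8 := htmax _ (mem_filter.2 ⟨h5, h4, h7, hp⟩)
          simp only [id] at h8
          omega
      have h3 := ih t hts ht (hts.le.trans hsN) hpt
      have h4 : hNP g c1 x0 x s ≤ hNP g c1 x0 x t + 1 := by
        unfold hNP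
        refine (card_le_card (t := insert s ((NwP g x).filter (fun a => a ≤ t ∧
          rkx g c1 x0 x a = rkx g c1 x0 x t ∧ ¬ Pyw g c1 x a))) fun a ha => ?_).trans
            (card_insert_le _ _)
        obtain ⟨h5, h6, h7, h8⟩ := mem_filter.1 ha
        rcases h6.eq_or_lt with h9 | h9
        · exact mem_insert.2 (Or.inl h9)
        · have h10 := htmax _ (mem_filter.2 ⟨h5, h9, h7, h8⟩)
          exact mem_insert.2 (Or.inr (mem_filter.2 ⟨h5, h10, h7.trans hrk.symm, h8⟩))
      have h5 : (hNP g c1 x0 x s : ℝ) ≤ hNP g c1 x0 x t + 1 := by exact_mod_cast h4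
      have h6 := ms_le_of_np h1 hz hpt hts.le hnx.ge
      obtain ⟨k, hk1, hk2, hk3⟩ := NwP_sep hJ hX hV hx ht hs hts
      have h7 : 1 ≤ nd (fun k => uw g x k = true) t s := one_le_nd hk1 hk2 hk3
      have h8 := W_lower (dv := fun k => uw g x k = true) hμ hts.le
      linarith

/-- **the walk in a phase which does not pay** -/
theorem W_hNP_le (hJ : JsOK g.K g.Js) (hX : g.Js ≤ g.X) (hV : g.V ⊆ Icc 1 (N g)) {c1 : ℝ}
    (h1 : 0 < c1) (hz : 1 ≤ c1 * zs g) {x0 x : ℕ} (hx : x ∈ g.V) {s b : ℕ}
    (hs : s ∈ NwP g x) (hsN : s ≤ N g - x0) (hps : ¬ Pyw g c1 x s) (hsb : s ≤ b)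
    (hbn : b ≤ nxw g x s) :
    3 * ((hNP g c1 x0 x s : ℝ) - 1) - 1 / 4 ≤
      RK.W (fun k => uw g x k = true) (muw g c1 x) b := by
  have hμ : ∀ j, 0 ≤ muw g c1 x j := muw_nonneg h1.le x
  have h3 := W_hNP hJ hX hV h1 hz hx s hs hsN hps
  have h4 := ms_le_of_np h1 hz hps hsb hbn
  have h5 := W_lower (dv := fun k => uw g x k = true) hμ hsb
  have h6 := nd_nonneg (dv := fun k => uw g x k = true) s b
  linarith

end Vale.P028.SK
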