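import Vale.Agent.P028.H132.SameFut

/-!
# Rows of one word with general partner weights
-/

namespace Vale.P028.RK

open Finset Vale.P028.RN

variable {n : ℕ} {L : Type*} [Fintype L] {π : Fin n → L → ℝ} {o : Fin n → L} {μ : ℕ → ℝ}
  {c κ ε : ℝ} {Ch : (Fin n → L) → Finset ℕ} {Pay : (Fin n → L) → ℕ → Prop}
  {σ : (Fin n → L) → ℝ}

/-- the word has only trivial labels in `[i, e)` -/
def Tri (o ω : Fin n → L) (i e : ℕ) : Prop := ∀ k, i ≤ k → k < e → ¬ dvw o ω k

theorem Sys.triv_exp (H : Sys π o μ c κ ε Ch Pay) {i d : ℕ} {a : ℝ} (hm : ms μ i d ≤ a) :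
    Real.exp (-a) ≤ ∏ k ∈ Ico i d, (if h : k < n then π ⟨k, h⟩ (o ⟨k, h⟩) else 1) := by
  have hε : ε ≤ 1 / 25 := by
    have h3 := Real.add_one_le_exp (24 : ℝ)
    have h4 := H.ε_small
    have h5 := H.ε_nonneg
    nlinarith
  have h0 := H.ε_nonneg
  have hk : ∀ k ∈ Ico i d, Real.exp (-μ k) ≤
      (if h : k < n then π ⟨k, h⟩ (o ⟨k, h⟩) else 1) := by
    intro k _
    have m0 := H.μ_nonneg k
    have m1 := H.μ_le k
    have h1 : Real.exp (-μ k) ≤ 1 - ε * μ k := by
      have h2 : Real.exp (-μ k) * (1 + μ k) ≤ 1 := by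
        have h3 := Real.add_one_le_exp (μ k)
        calc Real.exp (-μ k) * (1 + μ k) ≤ Real.exp (-μ k) * Real.exp (μ k) :=
              mul_le_mul_of_nonneg_left (by linarith) (Real.exp_pos _).le
          _ = 1 := by rw [← Real.exp_add]; simp
      have h4 : 1 ≤ (1 - ε * μ k) * (1 + μ k) := by
        have h5 : ε * μ k ≤ 1 / 25 * μ k := mul_le_mul_of_nonneg_right hε m0
        have h6 : ε * μ k * μ k ≤ 1 / 25 * μ k := by
          have : ε * μ k * μ k ≤ (1 / 25 * μ k) * 1 :=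
            mul_le_mul h5 (by linarith) m0 (by positivity)
          linarith
        nlinarith
      have h7 := Real.exp_pos (-μ k)
      nlinarith
    split_ifs with hkn
    · have := H.dev ⟨k, hkn⟩
      simp only at this
      linarith
    · rw [Real.exp_le_one_iff]
      linarith
  calc Real.exp (-a) ≤ Real.exp (-ms μ i d) := Real.exp_le_exp.2 (neg_le_neg hm)
    _ = ∏ k ∈ Ico i d, Real.exp (-μ k) := by
        unfold ms
        rw [← Real.exp_sum, sum_neg_distrib]
    _ ≤ _ := prod_le_prod (fun k _ => (Real.exp_pos _).le) hk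

open Classical in
/-- moving the place through trivial labels -/
theorem anchor (H : Sys π o μ c κ ε Ch Pay) {x : Fin n → L} {i e : ℕ} (hie : i ≤ e) (hen : e ≤ n)
    (hx : Tri o x i e) {a : ℝ} (hm : ms μ i e ≤ a) {g : (Fin n → L) → ℝ} (hg : ∀ v, 0 ≤ g v) :
    cE π i (fun v => Real.exp (W (dvw o v) μ i) * g v) x ≤
      Real.exp (2 * a) * cE π e (fun v => Real.exp (W (dvw o v) μ e) *
        (if Tri o v i e then g v else 0)) x := by
  set h : (Fin n → L) → ℝ := fun v => if Tri o v i e then Real.exp (W (dvw o v) μ i) * g v else 0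
    with hh
  have h0 : ∀ v, 0 ≤ h v := fun v => by
    rw [hh]
    simp only
    split_ifs
    · exact mul_nonneg (Real.exp_pos _).le (hg v)
    · exact le_rfl
  have e1 : cE π i (fun v => Real.exp (W (dvw o v) μ i) * g v) x = cE π i h x := by
    unfold cE
    refine sum_congr rfl fun z _ => ?_
    have : Tri o (mix i z x) i e := fun k k1 k2 => by
      rw [dvw_mix_ge k1]
      exact hx k k1 k2
    rw [hh]
    simp only
    rw [if_pos this]
  have e2 := cE_le_of_triv (o := o) H.π_nonneg H.π_one hie hen h0 hx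
  have e3 := H.triv_exp hm
  have e4 := cE_nonneg H.π_nonneg (s := i) h0 x
  have e5 : Real.exp (-a) * cE π i h x ≤ cE π e h x :=
    (mul_le_mul_of_nonneg_right e3 e4).trans e2
  have e6 : cE π e h x ≤ Real.exp a * cE π e (fun v => Real.exp (W (dvw o v) μ e) *
        (if Tri o v i e then g v else 0)) x := by
    unfold cE
    rw [mul_sum]
    refine sum_le_sum fun z _ => ?_
    set v := mix e z x
    have h6 := Pr_nonneg H.π_nonneg z
    rw [hh]
    simp only
    by_cases ht : Tri o v i e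
    · rw [if_pos ht, if_pos ht]
      have h7 := W_lower (dv := dvw o v) H.μ_nonneg hie
      rw [nd_eq_zero ht] at h7
      have h8 : Real.exp (W (dvw o v) μ i) ≤ Real.exp a * Real.exp (W (dvw o v) μ e) := by
        rw [← Real.exp_add]
        refine Real.exp_le_exp.2 ?_
        linarith
      have h9 := mul_le_mul_of_nonneg_left (mul_le_mul_of_nonneg_right h8 (hg v)) h6
      linarith
    · rw [if_neg ht, if_neg ht]
      simp
  rw [e1]
  have e7 : cE π i h x = Real.exp a * (Real.exp (-a) * cE π i h x) := by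
    rw [← mul_assoc, ← Real.exp_add]
    simp
  rw [e7]
  calc Real.exp a * (Real.exp (-a) * cE π i h x) ≤ Real.exp a * (Real.exp a * cE π e (fun v =>
        Real.exp (W (dvw o v) μ e) * (if Tri o v i e then g v else 0)) x) :=
        mul_le_mul_of_nonneg_left (e5.trans e6) (Real.exp_pos _).le
    _ = _ := by
        rw [← mul_assoc, ← Real.exp_add]
        ring_nf

theorem sum_biUnion_le' (s : Finset ℕ) (t : ℕ → Finset ℕ) (f : ℕ → ℝ) (hf : ∀ i, 0 ≤ f i) :
    ∑ i ∈ s.biUnion t, f i ≤ ∑ x ∈ s, ∑ i ∈ t x, f i := by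
  induction s using Finset.induction_on with
  | empty => simp
  | insert a s ha ih =>
    rw [biUnion_insert, sum_insert ha]
    have h1 := sum_union_inter (s₁ := t a) (s₂ := s.biUnion t) (f := f)
    have h2 : 0 ≤ ∑ i ∈ t a ∩ s.biUnion t, f i := sum_nonneg fun i _ => hf i
    linarith

open Classical in
/-- the row of one phase -/
theorem phase_row (H : Sys π o μ c κ ε Ch Pay) (hσ : ∀ ω, 0 ≤ σ ω) (x : Fin n → L) {J : Finset ℕ}
    {lo e : ℕ} (hJ : ∀ i ∈ J, lo ≤ i ∧ i ≤ e) (hen : e ≤ n) {a : ℝ} (ha : 0 ≤ a)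
    (link : ∀ i ∈ J, ∀ i' ∈ J, i < i' → ∀ b, i ≤ b → b ≤ i' →
      ms μ i b ≤ 2 * nd (dvw o x) i b + a)
    {G : ℕ → (Fin n → L) → ℝ} (hG : ∀ i v, 0 ≤ G i v) {C0 : ℝ} (hC0 : 0 ≤ C0)
    (coup : ∀ e' ≤ e, ∀ z, ∑ i ∈ J.filter (fun i => i ≤ e' ∧ Tri o x i e' ∧ Tri o z i e'),
      G i (mix e' z x) ≤ C0)
    {w : ℝ} (hw : ∀ k, lo ≤ k → k ≤ e → w ≤ W (dvw o x) μ k) :
    ∑ i ∈ J, Real.exp (-W (dvw o x) μ i) *
      cE π i (fun v => Real.exp (W (dvw o v) μ i) * (G i v * σ v ^ 3)) x ≤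
      3 * Real.exp (3 * a) * C0 * Real.exp (-w) * Dm π σ x := by
  have hD0 := Dm_nonneg (π := π) σ x
  rcases J.eq_empty_or_nonempty with h0 | h0
  · rw [h0, sum_empty]
    positivity
  set T := J.max' h0 with hT
  have hTJ : T ∈ J := max'_mem _ _
  obtain ⟨hT1, hT2⟩ := hJ T hTJ
  have hTn : T ≤ n := hT2.trans hen
  set dv := dvw o x with hdv
  set D := (Ico lo T).filter (fun d => dv d ∧ ∃ i ∈ J, FD dv i d) with hD
  have hTD : T ∉ D := fun h => by
    have := mem_Ico.1 (mem_filter.1 h).1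
    omega
  set B : ℕ → Finset ℕ := fun e' => J.filter (fun i => i ≤ e' ∧ Tri o x i e') with hB
  set f : ℕ → ℝ := fun i => Real.exp (-W dv μ i) *
      cE π i (fun v => Real.exp (W (dvw o v) μ i) * (G i v * σ v ^ 3)) x with hf
  have f0 : ∀ i, 0 ≤ f i := fun i => mul_nonneg (Real.exp_pos _).le
    (cE_nonneg H.π_nonneg (fun v => mul_nonneg (Real.exp_pos _).le
      (mul_nonneg (hG i v) (pow_nonneg (hσ v) 3))) x)
  -- covering
  have hcov : J ⊆ (insert T D).biUnion B := by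
    intro i hi
    rw [mem_biUnion]
    by_cases hex : ∃ k, i ≤ k ∧ k < T ∧ dv k
    · obtain ⟨k, k1, k2, k3⟩ := hex
      obtain ⟨d, hd, hdk⟩ := exists_FD k1 k3
      refine ⟨d, mem_insert_of_mem (mem_filter.2 ⟨mem_Ico.2 ⟨?_, by omega⟩, hd.2.1, i, hi, hd⟩),
        mem_filter.2 ⟨hi, hd.1, hd.2.2⟩⟩
      have := (hJ i hi).1
      have := hd.1
      omega
    · push Not at hex
      exact ⟨T, mem_insert_self _ _, mem_filter.2 ⟨hi, le_max' _ _ hi, fun k k1 k2 =>
        hex k k1 k2⟩⟩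
  -- one anchor
  have hone : ∀ e' ∈ insert T D, ∑ i ∈ B e', f i ≤
      Real.exp (-W dv μ e') * (Real.exp (2 * a) * C0 * Dm π σ x) := by
    intro e' he'
    have he'T : e' ≤ T := by
      rcases mem_insert.1 he' with rfl | h
      · exact le_rfl
      · exact (mem_Ico.1 (mem_filter.1 h).1).2.le
    have he'n : e' ≤ n := he'T.trans hTn
    have h1 : ∀ i ∈ B e', f i ≤ Real.exp (-W dv μ e') * (Real.exp (2 * a) *
        cE π e' (fun v => Real.exp (W (dvw o v) μ e') *
          (if Tri o v i e' then G i v * σ v ^ 3 else 0)) x) := by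
      intro i hi
      obtain ⟨hiJ, hie, htr⟩ := mem_filter.1 hi
      have hms : ms μ i e' ≤ a := by
        rcases (le_max' J i hiJ).eq_or_lt with h | h
        · have : e' = i := by omega
          rw [this, ms_self]
          exact ha
        · have h2 := link i hiJ T hTJ h e' hie he'T
          rw [nd_eq_zero htr] at h2
          linarith
      have h2 := anchor H hie he'n htr hms (g := fun v => G i v * σ v ^ 3)
        (fun v => mul_nonneg (hG i v) (pow_nonneg (hσ v) 3))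
      have h3 : Real.exp (-W dv μ i) ≤ Real.exp (-W dv μ e') :=
        Real.exp_le_exp.2 (neg_le_neg (W_le_of_noDev H.μ_nonneg hie htr))
      exact mul_le_mul h3 h2 (cE_nonneg H.π_nonneg (fun v => mul_nonneg (Real.exp_pos _).le
        (mul_nonneg (hG i v) (pow_nonneg (hσ v) 3))) x) (Real.exp_pos _).le
    refine (sum_le_sum h1).trans ?_
    rw [← mul_sum, ← mul_sum]
    refine mul_le_mul_of_nonneg_left ?_ (Real.exp_pos _).le
    rw [mul_assoc]
    refine mul_le_mul_of_nonneg_left ?_ (Real.exp_pos _).le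
    have h4 := cE_exp_W_le H.π_nonneg H.π_one H.μ_nonneg H.μ_le H.ε_small H.dev he'n hσ x
    have h5 : ∑ i ∈ B e', cE π e' (fun v => Real.exp (W (dvw o v) μ e') *
          (if Tri o v i e' then G i v * σ v ^ 3 else 0)) x ≤
        C0 * cE π e' (fun v => Real.exp (W (dvw o v) μ e') * σ v ^ 3) x := by
      unfold cE
      rw [sum_comm, mul_sum]
      refine sum_le_sum fun z _ => ?_
      rw [← mul_sum]
      set v := mix e' z x
      have h6 := Pr_nonneg H.π_nonneg z
      have h7 : ∑ i ∈ B e', Real.exp (W (dvw o v) μ e') *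
          (if Tri o v i e' then G i v * σ v ^ 3 else 0) ≤
          C0 * (Real.exp (W (dvw o v) μ e') * σ v ^ 3) := by
        rw [← mul_sum]
        have h8 : ∑ i ∈ B e', (if Tri o v i e' then G i v * σ v ^ 3 else 0) ≤ C0 * σ v ^ 3 := by
          rw [← sum_filter, ← sum_mul]
          refine mul_le_mul_of_nonneg_right ?_ (pow_nonneg (hσ v) 3)
          refine le_trans (le_of_eq ?_) (coup e' (he'T.trans hT2) z)
          rw [hB]
          simp only
          rw [filter_filter]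
          refine sum_congr ?_ fun i _ => rfl
          ext i
          simp only [mem_filter]
          refine and_congr_right fun _ => ?_
          constructor
          · rintro ⟨⟨k1, k2⟩, k3⟩
            refine ⟨k1, k2, fun k k4 k5 => ?_⟩
            have := k3 k k4 k5
            rwa [dvw_mix_lt k5] at this
          · rintro ⟨k1, k2, k3⟩
            refine ⟨⟨k1, k2⟩, fun k k4 k5 => ?_⟩
            rw [dvw_mix_lt k5]
            exact k3 k k4 k5
        have h9 := mul_le_mul_of_nonneg_left h8 (Real.exp_pos (W (dvw o v) μ e')).le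
        linarith
      have h8 := mul_le_mul_of_nonneg_left h7 h6
      linarith
    exact h5.trans (mul_le_mul_of_nonneg_left h4 hC0)
  -- sum over the anchors
  have hanch : ∑ e' ∈ insert T D, Real.exp (-W dv μ e') ≤ 3 * Real.exp a * Real.exp (-w) := by
    rw [sum_insert hTD]
    have h1 : Real.exp (-W dv μ T) ≤ Real.exp (-w) :=
      Real.exp_le_exp.2 (neg_le_neg (hw T hT1 hT2))
    have h2 : ∑ d ∈ D, Real.exp (-W dv μ d) ≤ 2 * Real.exp a * Real.exp (-w) := by
      rcases D.eq_empty_or_nonempty with hD0 | hD0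
      · rw [hD0, sum_empty]
        positivity
      set d1 := D.min' hD0 with hd1
      obtain ⟨hd1a, hd1b, i1, hi1, hfd1⟩ := mem_filter.1 (min'_mem D hD0)
      rw [← hd1, mem_Ico] at hd1a
      rw [← hd1] at hd1b hfd1
      have hi1T : i1 < T := lt_of_le_of_lt hfd1.1 hd1a.2
      have h3 : ∀ d ∈ D, Real.exp (-W dv μ d) ≤
          Real.exp a * Real.exp (-w) * Real.exp (-nd dv d1 d) := by
        intro d hd
        have hd1d : d1 ≤ d := min'_le _ _ hd
        have hda := mem_Ico.1 (mem_filter.1 hd).1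
        have h4 := W_lower (dv := dv) H.μ_nonneg hd1d
        have h5 := link i1 hi1 T hTJ hi1T d (by have := hfd1.1; omega) hda.2.le
        have h6 := nd_add (dv := dv) hfd1.1 hd1d
        rw [nd_eq_zero hfd1.2.2, zero_add] at h6
        have h7 := ms_add (μ := μ) hfd1.1 hd1d
        have h8 := ms_nonneg H.μ_nonneg i1 d1
        have h9 := hw d1 hd1a.1 (by omega)
        have h10 := nd_nonneg (dv := dv) d1 d
        rw [h6] at h5
        rw [← Real.exp_add, ← Real.exp_add]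
        refine Real.exp_le_exp.2 ?_
        linarith
      have h4 : ∑ d ∈ D, Real.exp (-nd dv d1 d) ≤ 2 * Real.exp (-0) := by
        refine geo D (fun d => nd dv d1 d) 0 (fun d _ => nd_nonneg _ _) fun d hd d' hd' hlt => ?_
        have hd1d : d1 ≤ d := min'_le _ _ hd
        have h5 := nd_add (dv := dv) hd1d hlt.le
        have h6 := one_le_nd (dv := dv) (le_refl d) hlt (mem_filter.1 hd).2.1
        linarith
      rw [neg_zero, Real.exp_zero, mul_one] at h4
      refine (sum_le_sum h3).trans ?_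
      rw [← mul_sum]
      have h5 : 0 ≤ Real.exp a * Real.exp (-w) := by positivity
      have h6 := mul_le_mul_of_nonneg_left h4 h5
      linarith
    have h3 : 1 ≤ Real.exp a := Real.one_le_exp ha
    have h4 := Real.exp_pos (-w)
    nlinarith
  have hmain : ∑ i ∈ J, f i ≤ ∑ e' ∈ insert T D, ∑ i ∈ B e', f i := by
    refine (sum_le_sum_of_subset_of_nonneg hcov fun i _ _ => f0 i).trans ?_
    exact sum_biUnion_le' _ _ f f0
  refine hmain.trans ((sum_le_sum hone).trans ?_)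
  rw [← sum_mul]
  have h5 : 0 ≤ Real.exp (2 * a) * C0 * Dm π σ x := by positivity
  refine (mul_le_mul_of_nonneg_right hanch h5).trans (le_of_eq ?_)
  have e3 : Real.exp (3 * a) = Real.exp a * Real.exp (2 * a) := by
    rw [← Real.exp_add]
    ring_nf
  rw [e3]
  ring

/-- the phase of `i` -/
def InPh (Ch : Finset ℕ) (j i : ℕ) : Prop := j ≤ i ∧ ∀ s ∈ Ch, j < s → i < s

theorem Vp_of_inPh {κ : ℝ} {Pay : ℕ → Prop} {Ch : Finset ℕ} {j i : ℕ} (h : InPh Ch j i) :
    Vp κ Pay Ch i = Vp κ Pay Ch j := by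
  unfold Vp
  congr 1
  ext s
  simp only [mem_filter]
  constructor
  · rintro ⟨h1, h2⟩
    exact ⟨h1, lt_of_le_of_lt h.1 h2⟩
  · rintro ⟨h1, h2⟩
    exact ⟨h1, h.2 s h1 h2⟩

theorem exists_inPh {Ch : Finset ℕ} {i : ℕ} (h : ∃ j ∈ Ch, j ≤ i) : ∃ j ∈ Ch, InPh Ch j i := by
  classical
  obtain ⟨j0, h1, h2⟩ := h
  have hne : (Ch.filter (fun j => j ≤ i)).Nonempty := ⟨j0, mem_filter.2 ⟨h1, h2⟩⟩
  set j := (Ch.filter (fun j => j ≤ i)).max' hne with hj
  have hm := mem_filter.1 (max'_mem _ hne)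
  refine ⟨j, hm.1, hm.2, fun s hs hjs => ?_⟩
  by_contra hcon
  have := le_max' (Ch.filter (fun j => j ≤ i)) s (mem_filter.2 ⟨hs, by omega⟩)
  omega

theorem InPh.le_nx {Ch : Finset ℕ} {j i : ℕ} (h : InPh Ch j i) (hin : i ≤ n) :
    i ≤ nx Ch n j := by
  rcases Nat.lt_or_ge j n with hj | hj
  · rcases nx_mem_or (Ch := Ch) (n := n) j with h1 | h1
    · rw [h1]
      exact hin
    · exact (h.2 _ h1 (lt_nx hj)).le
  · have : nx Ch n j = n := by
      rcases nx_mem_or (Ch := Ch) (n := n) j with h1 | h1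
      · exact h1
      · have h2 : j < nx Ch n j ∨ nx Ch n j ≤ j := lt_or_ge _ _
        have h3 := nx_le (Ch := Ch) (n := n) j
        rcases h2 with h2 | h2
        · omega
        · have h4 := min'_mem (insert n (Ch.filter (fun s => j < s))) (insert_nonempty _ _)
          rcases mem_insert.1 h4 with h5 | h5
          · exact h5
          · have h6 := (mem_filter.1 h5).2
            have h7 : nx Ch n j = (insert n (Ch.filter (fun s => j < s))).min'
              (insert_nonempty _ _) := rfl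
            omega
    rw [this]
    exact hin

open Classical in
/-- THE OLD ROW of one word with general partner weights -/
theorem old_row_gen (H : Sys π o μ c κ ε Ch Pay) (hσ : ∀ ω, 0 ≤ σ ω) (x : Fin n → L)
    (I : Finset ℕ) (hI : ∀ i ∈ I, i ≤ n ∧ ∃ j ∈ Ch x, j ≤ i) {a : ℝ} (ha : 0 ≤ a)
    (link : ∀ i ∈ I, ∀ i' ∈ I, i < i' → (∀ s ∈ Ch x, i < s → i' < s) → ∀ b, i ≤ b → b ≤ i' →
      ms μ i b ≤ 2 * nd (dvw o x) i b + a)
    {G : ℕ → (Fin n → L) → ℝ} (hG : ∀ i v, 0 ≤ G i v) {C0 : ℝ} (hC0 : 0 ≤ C0)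
    (coup : ∀ e' ≤ n, ∀ z, ∀ j ∈ Ch x, ∑ i ∈ I.filter (fun i => InPh (Ch x) j i ∧ i ≤ e' ∧
      Tri o x i e' ∧ Tri o z i e'), G i (mix e' z x) ≤ C0) :
    ∑ i ∈ I, Vp κ (Pay x) (Ch x) i * (Real.exp (-W (dvw o x) μ i) *
      cE π i (fun v => Real.exp (W (dvw o v) μ i) * (G i v * σ v ^ 3)) x) ≤
      255 * Real.exp (3 * a) * C0 / κ * Dm π σ x := by
  have hκ0 := H.κ_pos
  have hκ1 := H.κ_le
  have hD0 := Dm_nonneg (π := π) σ x
  set f : ℕ → ℝ := fun i => Real.exp (-W (dvw o x) μ i) *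
      cE π i (fun v => Real.exp (W (dvw o v) μ i) * (G i v * σ v ^ 3)) x with hf
  have f0 : ∀ i, 0 ≤ f i := fun i => mul_nonneg (Real.exp_pos _).le
    (cE_nonneg H.π_nonneg (fun v => mul_nonneg (Real.exp_pos _).le
      (mul_nonneg (hG i v) (pow_nonneg (hσ v) 3))) x)
  set J : ℕ → Finset ℕ := fun j => I.filter (fun i => InPh (Ch x) j i) with hJ
  have hV : ∀ i, 0 ≤ Vp κ (Pay x) (Ch x) i := fun i => (Vp_bounds hκ0.le hκ1 i).1
  have hcov : I ⊆ (Ch x).biUnion J := by
    intro i hi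
    obtain ⟨j, hj, hji⟩ := exists_inPh (hI i hi).2
    exact mem_biUnion.2 ⟨j, hj, mem_filter.2 ⟨hi, hji⟩⟩
  have h1 : ∑ i ∈ I, Vp κ (Pay x) (Ch x) i * f i ≤
      ∑ j ∈ Ch x, ∑ i ∈ J j, Vp κ (Pay x) (Ch x) i * f i :=
    (sum_le_sum_of_subset_of_nonneg hcov fun i _ _ => mul_nonneg (hV i) (f0 i)).trans
      (sum_biUnion_le' _ _ _ fun i => mul_nonneg (hV i) (f0 i))
  have h2 : ∑ j ∈ Ch x, ∑ i ∈ J j, Vp κ (Pay x) (Ch x) i * f i =
      ∑ j ∈ Ch x, (∑ i ∈ J j, f i) * Vp κ (Pay x) (Ch x) j := by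
    refine sum_congr rfl fun j _ => ?_
    rw [sum_mul]
    refine sum_congr rfl fun i hi => ?_
    rw [Vp_of_inPh (mem_filter.1 hi).2]
    ring
  set A := 3 * Real.exp (3 * a) * C0 * Dm π σ x with hA
  have hA0 : 0 ≤ A := by positivity
  -- one phase
  have hph : ∀ j ∈ Ch x, ∀ w, (∀ k, j ≤ k → k ≤ nx (Ch x) n j → w ≤ W (dvw o x) μ k) →
      ∑ i ∈ J j, f i ≤ A * Real.exp (-w) := by
    intro j hj w hw
    have h3 := phase_row H hσ x (J := J j) (lo := j) (e := nx (Ch x) n j)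
      (fun i hi => ⟨(mem_filter.1 hi).2.1, (mem_filter.1 hi).2.le_nx (hI i (mem_filter.1 hi).1).1⟩)
      (nx_le j) ha
      (fun i hi i' hi' hii' b hb1 hb2 => by
        obtain ⟨k1, k2⟩ := mem_filter.1 hi
        obtain ⟨k3, k4⟩ := mem_filter.1 hi'
        exact link i k1 i' k3 hii' (fun s hs his => k4.2 s hs (lt_of_le_of_lt k2.1 his)) b hb1 hb2)
      hG hC0
      (fun e' he' z => by
        refine le_trans (le_of_eq ?_) (coup e' (he'.trans (nx_le j)) z j hj)
        rw [hJ]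
        simp only
        rw [filter_filter])
      hw
    refine h3.trans (le_of_eq ?_)
    rw [hA]
    ring
  have h3 := chain_sum (Pay := Pay x) hκ0 hκ1 (a := A) (b := 21 * A) hA0 (by positivity)
    (w := W (dvw o x) μ) (fun k => W_nonneg k) (F := fun j => ∑ i ∈ J j, f i) (Ch x)
    (fun j hj _ => by
      have := hph j hj 0 fun k _ _ => W_nonneg k
      simpa using this)
    (fun j hj hp => by
      refine (hph j hj (W (dvw o x) μ j - 3) ((H.pos x).low H.μ_nonneg hj hp)).trans ?_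
      have e1 : Real.exp (-(W (dvw o x) μ j - 3)) = Real.exp 3 * Real.exp (-W (dvw o x) μ j) := by
        rw [← Real.exp_add]
        ring_nf
      rw [e1]
      have e2 := mul_le_mul_of_nonneg_right exp_three (Real.exp_pos (-W (dvw o x) μ j)).le
      have e3 := mul_le_mul_of_nonneg_left e2 hA0
      linarith)
    (fun j hj s hs hjs hn hp => (H.pos x).incr H.μ_nonneg hj hp hs hjs hn)
  refine h1.trans (h2.le.trans (h3.trans (le_of_eq ?_)))
  rw [hA]
  ring

open Classical in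
/-- THE NEW ROW of one word with general partner weights, paying phases and last phase -/
theorem new_row_gen1 (H : Sys π o μ c κ ε Ch Pay) (hσ : ∀ ω, 0 ≤ σ ω) (x : Fin n → L)
    {G : ℕ → (Fin n → L) → ℝ} {C0 : ℝ} (hC0 : 0 ≤ C0)
    (hG1 : ∀ i ∈ Ch x, ∀ z, G i (mix i z x) ≤ C0) :
    ∑ i ∈ (Ch x).filter (fun i => Pay x i ∨ ∀ t ∈ Ch x, t ≤ i), Vt κ (Pay x) (Ch x) i *
      cE π i (fun v => G i v * σ v ^ 3) x ≤ (1 / κ + 1) * C0 * Dm π σ x := by
  have hκ0 := H.κ_pos
  have hκ1 := H.κ_le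
  have hD0 := Dm_nonneg (π := π) σ x
  have h1 : ∀ i ∈ Ch x, cE π i (fun v => G i v * σ v ^ 3) x ≤ C0 * Dm π σ x := by
    intro i hi
    have h2 := cE_exp_W_le H.π_nonneg H.π_one H.μ_nonneg H.μ_le H.ε_small H.dev
      ((H.pos x).le i hi) hσ x
    refine le_trans ?_ (mul_le_mul_of_nonneg_left h2 hC0)
    unfold cE
    rw [mul_sum]
    refine sum_le_sum fun z _ => ?_
    beta_reduce
    have h3 := Pr_nonneg H.π_nonneg z
    have h4 : 0 ≤ σ (mix i z x) ^ 3 := pow_nonneg (hσ _) 3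
    have h5 : 1 ≤ Real.exp (W (dvw o (mix i z x)) μ i) := Real.one_le_exp (W_nonneg i)
    have h6 : G i (mix i z x) * σ (mix i z x) ^ 3 ≤ C0 * (Real.exp (W (dvw o (mix i z x)) μ i) *
        σ (mix i z x) ^ 3) := by
      have h7 := mul_le_mul_of_nonneg_right (hG1 i hi z) h4
      have h8 := mul_le_mul_of_nonneg_left (mul_le_mul_of_nonneg_right h5 h4) hC0
      linarith
    have h9 := mul_le_mul_of_nonneg_left h6 h3
    linarith
  have hV : ∀ i, 0 ≤ Vt κ (Pay x) (Ch x) i := fun i => (Vt_bounds hκ0.le hκ1 i).1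
  have h2 := row_pay (Pay := Pay x) hκ0 hκ1 (Ch x)
  have h3 := row_last (Pay := Pay x) hκ0 hκ1 (Ch x)
  have h4 : ∑ i ∈ (Ch x).filter (fun i => Pay x i ∨ ∀ t ∈ Ch x, t ≤ i), Vt κ (Pay x) (Ch x) i ≤
      1 / κ + 1 := by
    refine le_trans ?_ (add_le_add h2 h3)
    rw [sum_filter, sum_filter, sum_filter, ← sum_add_distrib]
    refine sum_le_sum fun i _ => ?_
    have := hV i
    by_cases hp : Pay x i
    · rw [if_pos (Or.inl hp), if_pos hp]
      split_ifs <;> linarith
    · by_cases hl : ∀ t ∈ Ch x, t ≤ i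
      · rw [if_pos (Or.inr hl), if_neg hp, if_pos hl]
        linarith
      · rw [if_neg (by tauto), if_neg hp, if_neg hl]
        linarith
  calc ∑ i ∈ (Ch x).filter (fun i => Pay x i ∨ ∀ t ∈ Ch x, t ≤ i), Vt κ (Pay x) (Ch x) i *
        cE π i (fun v => G i v * σ v ^ 3) x
      ≤ ∑ i ∈ (Ch x).filter (fun i => Pay x i ∨ ∀ t ∈ Ch x, t ≤ i), Vt κ (Pay x) (Ch x) i *
        (C0 * Dm π σ x) :=
        sum_le_sum fun i hi => mul_le_mul_of_nonneg_left (h1 i (mem_filter.1 hi).1) (hV i)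
    _ = (∑ i ∈ (Ch x).filter (fun i => Pay x i ∨ ∀ t ∈ Ch x, t ≤ i), Vt κ (Pay x) (Ch x) i) *
        (C0 * Dm π σ x) := by rw [sum_mul]
    _ ≤ (1 / κ + 1) * (C0 * Dm π σ x) := mul_le_mul_of_nonneg_right h4 (by positivity)
    _ = _ := by ring

open Classical in
/-- THE NEW ROW of one word with general partner weights, phases which do not pay -/
theorem new_row_gen2 (H : Sys π o μ c κ ε Ch Pay) (hσ : ∀ ω, 0 ≤ σ ω) (x : Fin n → L)
    {G : ℕ → (Fin n → L) → ℝ} {C0 : ℝ} (hC0 : 0 ≤ C0)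
    (hG1 : ∀ i ∈ Ch x, ∀ z, G i (mix i z x) ≤ C0) :
    ∑ i ∈ (Ch x).filter (fun i => ¬ Pay x i), Vt κ (Pay x) (Ch x) i *
      (Real.exp (-W (dvw o x) μ i) *
        cE π i (fun v => Real.exp (W (dvw o v) μ i) * (G i v * σ v ^ 3)) x) ≤
      4 / κ * C0 * Dm π σ x := by
  have hκ0 := H.κ_pos
  have hκ1 := H.κ_le
  have hD0 := Dm_nonneg (π := π) σ x
  have h1 : ∀ i ∈ Ch x, cE π i (fun v => Real.exp (W (dvw o v) μ i) * (G i v * σ v ^ 3)) x ≤
      C0 * Dm π σ x := by
    intro i hi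
    have h2 := cE_exp_W_le H.π_nonneg H.π_one H.μ_nonneg H.μ_le H.ε_small H.dev
      ((H.pos x).le i hi) hσ x
    refine le_trans ?_ (mul_le_mul_of_nonneg_left h2 hC0)
    unfold cE
    rw [mul_sum]
    refine sum_le_sum fun z _ => ?_
    beta_reduce
    have h3 := Pr_nonneg H.π_nonneg z
    have h4 : 0 ≤ σ (mix i z x) ^ 3 := pow_nonneg (hσ _) 3
    have h6 : Real.exp (W (dvw o (mix i z x)) μ i) * (G i (mix i z x) * σ (mix i z x) ^ 3) ≤
        C0 * (Real.exp (W (dvw o (mix i z x)) μ i) * σ (mix i z x) ^ 3) := by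
      have h7 := mul_le_mul_of_nonneg_right (hG1 i hi z) h4
      have h8 := mul_le_mul_of_nonneg_left h7 (Real.exp_pos (W (dvw o (mix i z x)) μ i)).le
      linarith
    have h9 := mul_le_mul_of_nonneg_left h6 h3
    linarith
  have h2 := row_np H.μ_nonneg hκ0 hκ1 (H.pos x)
  have hV : ∀ i, 0 ≤ Vt κ (Pay x) (Ch x) i := fun i => (Vt_bounds hκ0.le hκ1 i).1
  calc ∑ i ∈ (Ch x).filter (fun i => ¬ Pay x i), Vt κ (Pay x) (Ch x) i *
        (Real.exp (-W (dvw o x) μ i) *
          cE π i (fun v => Real.exp (W (dvw o v) μ i) * (G i v * σ v ^ 3)) x)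
      ≤ ∑ i ∈ (Ch x).filter (fun i => ¬ Pay x i), (Real.exp (-W (dvw o x) μ i) *
        Vt κ (Pay x) (Ch x) i) * (C0 * Dm π σ x) := by
        refine sum_le_sum fun i hi => ?_
        have h3 := mul_le_mul_of_nonneg_left (h1 i (mem_filter.1 hi).1)
          (mul_nonneg (Real.exp_pos (-W (dvw o x) μ i)).le (hV i))
        linarith
    _ = (∑ i ∈ (Ch x).filter (fun i => ¬ Pay x i), Real.exp (-W (dvw o x) μ i) *
        Vt κ (Pay x) (Ch x) i) * (C0 * Dm π σ x) := by rw [sum_mul]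
    _ ≤ 4 / κ * (C0 * Dm π σ x) := mul_le_mul_of_nonneg_right h2 (by positivity)
    _ = _ := by ring

/-- the maximal function of the constant `1` -/
theorem Dm_one (h1 : ∀ j, ∑ m, π j m = 1) (x : Fin n → L) : Dm π (fun _ => 1) x ≤ 7 / 4 := by
  have h : ∀ t, Mx π (fun _ : Fin n → L => (1 : ℝ) ^ 4) t x = 1 := by
    intro t
    have e : ∀ s, cE π s (fun _ : Fin n → L => (1 : ℝ) ^ 4) x = 1 := by
      intro s
      unfold cE
      simp only [one_pow, mul_one]
      exact Pr_sum π h1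
    induction t with
    | zero => exact e n
    | succ t ih =>
      change max _ _ = _
      rw [ih, e]
      simp
  unfold Dm
  rw [h n]
  simp

end Vale.P028.RK
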