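import Vale.Agent.P028.H530.OutLaw
import Vale.Agent.P028.H132.RowG
attribute [-instance] ProperSMul.toContinuousSMul IsTopologicalTorsor.toContinuousSMul IdemSemiring.toCanonicallyOrderedAdd IdemSemiring.toMulLeftMono IdemSemiring.toMulRightMono AddQuantale.instAddLeftMono AddQuantale.instAddRightMono Quantale.instMulLeftMono Quantale.instMulRightMono FiniteDimensional.rclike_to_real IsScalarTower.complexToReal FiniteDimensional.complexToReal

/-!
# The rows of the old member in the language of numbers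

`x` is charged, `i` runs over stages of the history of `x` (not stages of newness), the partners
`y` are in the `z_i`-cell of `x` (arbitrary inner parts). Families of such rows are treated
together, only the families which meet one phase of `x` have to be summed.
-/

namespace Vale.P028.SK

open Finset CF RN H669 RK

variable {g : Cfg}

/-! ### Stages and phases -/

/-- the stage `i` belongs to the phase of `x` which begins at the newness stage `h` -/
def Fs (g : Cfg) (x h i : ℕ) : Prop :=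
  1 ≤ h ∧ h ≤ i ∧ Nw g h x ∧ ∀ t, h < t → t ≤ i → ¬ Nw g t x

theorem exists_Fs {x i : ℕ} (h : ∃ j, 1 ≤ j ∧ j ≤ i ∧ Nw g j x) : ∃ j, Fs g x j i := by
  classical
  obtain ⟨j0, h1, h2, h3⟩ := h
  have hne : ((Icc 1 i).filter (fun j => Nw g j x)).Nonempty :=
    ⟨j0, mem_filter.2 ⟨mem_Icc.2 ⟨h1, h2⟩, h3⟩⟩
  set j := ((Icc 1 i).filter (fun j => Nw g j x)).max' hne with hj
  have hm := mem_filter.1 (max'_mem _ hne)
  rw [← hj, mem_Icc] at hm
  refine ⟨j, hm.1.1, hm.1.2, hm.2, fun t ht hti hnw => ?_⟩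
  have := le_max' ((Icc 1 i).filter (fun j => Nw g j x)) t
    (mem_filter.2 ⟨mem_Icc.2 ⟨by omega, hti⟩, hnw⟩)
  omega

theorem Fs.unique {x h h' i : ℕ} (a : Fs g x h i) (b : Fs g x h' i) : h = h' := by
  rcases lt_trichotomy h h' with h1 | h1 | h1
  · exact absurd b.2.2.1 (a.2.2.2 h' h1 b.2.1)
  · exact h1
  · exact absurd a.2.2.1 (b.2.2.2 h h1 a.2.1)

theorem Fs.mem_NwP {x h i : ℕ} (a : Fs g x h i) (hi : i ≤ nst g) : N g - z g h ∈ NwP g x :=
  SK.mem_NwP.2 ⟨h, a.1, a.2.1.trans hi, a.2.2.1, rfl⟩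

/-- the phase of a stage in terms of positions -/
theorem Fs.inPh (hJ : JsOK g.K g.Js) (hX : g.Js ≤ g.X) {x h i : ℕ} (a : Fs g x h i) :
    InPh (NwP g x) (N g - z g h) (N g - z g i) := by
  refine ⟨?_, fun s hs hlt => ?_⟩
  · have := z_anti g a.2.1
    omega
  · obtain ⟨t, ht1, ht2, ht3, rfl⟩ := SK.mem_NwP.1 hs
    have hti : i < t := by
      by_contra hcon
      have h1 : t ≤ h := by
        by_contra h2
        exact a.2.2.2 t (by omega) (by omega) ht3
      have := z_anti g h1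
      omega
    have h2 := z_strict hJ hX (show 1 ≤ i by have := a.1; have := a.2.1; omega) hti ht2
    omega

/-- the phase in terms of positions determines the newness stage -/
theorem Fs_of_inPh (hJ : JsOK g.K g.Js) (hX : g.Js ≤ g.X) (hV : g.V ⊆ Icc 1 (N g)) {x j i : ℕ}
    (hx : x ∈ g.V) (hi : i ≤ nst g) (hj : j ∈ NwP g x) (hp : InPh (NwP g x) j (N g - z g i))
    (hex : ∃ j, 1 ≤ j ∧ j ≤ i ∧ Nw g j x) {h : ℕ} (hh : Nw g h x) (hhj : N g - z g h = j) :
    Fs g x h i := by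
  obtain ⟨h', a⟩ := exists_Fs hex
  have h1 := a.inPh hJ hX
  have h2 := a.mem_NwP hi
  have e : N g - z g h' = j := by
    rcases lt_trichotomy (N g - z g h') j with h3 | h3 | h3
    · have := h1.2 j hj h3
      have := hp.1
      omega
    · exact h3
    · have := hp.2 _ h2 h3
      have := h1.1
      omega
  have e2 : h' = h := ch_inj hJ hX hV hx a.2.2.1.ch hh.ch (e.trans hhj.symm)
  rw [← e2]
  exact a

/-! ### Deficits and hybrid words -/

/-- no deviation between two stages: the deficits agree -/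
theorem M_eq_of_tri (hV : g.V ⊆ Icc 1 (N g)) {j k x : ℕ} (hx : x ∈ g.V) (hjk : j ≤ k)
    (hz : zs g ≤ z g k) (ht : Tri (fun _ => 0) (wo g x) (N g - z g j) (N g - z g k)) :
    M g j x = M g k x := by
  by_contra hne
  obtain ⟨a, h1, h2, h3⟩ := dev_of_M hV hx hjk hz hne
  exact ht a h1 h2 ((uw_dvw x a).1 h3)

/-- the outer deficits of two partners with the same hybrid word agree -/
theorem M_hbw2 {i i2 x y y2 : ℕ} (hij : i ≤ i2) (hz : zs g ≤ z g i2)
    (hy : y ∈ g.V) (hy2 : y2 ∈ g.V) (he : hbw g i y x = hbw g i2 y2 x)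
    (ht : Tri (fun _ => 0) (wo g x) (N g - z g i) (N g - z g i2)) : M g i y = M g i2 y2 := by
  have hzz := z_anti g hij
  refine Nat.eq_of_factorization_eq (M_pos g i y).ne' (M_pos g i2 y2).ne' fun p => ?_
  rw [M_fac', M_fac']
  by_cases hp2 : p ∈ PO (z g i2) (N g)
  · have hp3 := mem_PO.1 hp2
    have hj : N g - p < N g := by
      have := hp3.1.pos
      omega
    have hj2 : N g - p < N g - z g i2 := by omega
    have hpN : N g - (N g - p) = p := by omega
    have f2 : (wo g y2 ⟨N g - p, hj⟩ : ℕ) = kc g y2 p - y2.factorization p := by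
      rw [wo_val hy2]
      change (Md g y2).factorization (N g - (N g - p)) = _
      rw [hpN, Md_fac, if_pos (PO_mono hz hp2)]
    have f1 : (wo g y ⟨N g - p, hj⟩ : ℕ) = kc g y p - y.factorization p := by
      rw [wo_val hy]
      change (Md g y).factorization (N g - (N g - p)) = _
      rw [hpN, Md_fac, if_pos (PO_mono hz hp2)]
    have e1 := congrFun he ⟨N g - p, hj⟩
    rw [if_pos hp2]
    unfold hbw mix at e1
    by_cases hp1 : p ∈ PO (z g i) (N g)
    · have hj1 : N g - p < N g - z g i := by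
        have := (mem_PO.1 hp1).2.1
        omega
      rw [if_pos hp1]
      rw [if_pos hj1, if_pos hj2] at e1
      rw [← f1, ← f2, e1]
    · have hj1 : ¬ N g - p < N g - z g i := by
        intro h
        exact hp1 (mem_PO.2 ⟨hp3.1, by omega, hp3.2.2⟩)
      rw [if_neg hp1]
      rw [if_neg hj1, if_pos hj2] at e1
      have h3 : wo g x ⟨N g - p, hj⟩ = 0 := by
        by_contra h4
        exact ht (N g - p) (by omega) hj2 ⟨hj, h4⟩
      rw [← f2, ← e1, h3]
      rfl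
  · have hp1 : p ∉ PO (z g i) (N g) := fun h => hp2 (PO_mono hzz h)
    rw [if_neg hp1, if_neg hp2]

/-! ### The data of one row -/

open Classical in
/-- the family of the partners of `x` at stages of the history of `x` -/
structure OldI (g : Cfg) (c1 : ℝ) (x : ℕ) (I : Finset ℕ) (Y : ℕ → Finset ℕ) (w : ℕ → ℕ → ℝ)
    (a C₀ : ℝ) : Prop where
  st : ∀ i ∈ I, 1 ≤ i ∧ i ≤ nst g ∧ ∃ j, 1 ≤ j ∧ j ≤ i ∧ Nw g j x
  sub : ∀ i ∈ I, Y i ⊆ g.V
  cell : ∀ i ∈ I, ∀ y ∈ Y i, y ∈ NT.cell g.V (f g) (thr g) (N g) (z g i) x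
  nonneg : ∀ i ∈ I, ∀ y ∈ Y i, 0 ≤ w i y
  a_nonneg : 0 ≤ a
  C0_nonneg : 0 ≤ C₀
  link : ∀ i ∈ I, ∀ i2 ∈ I, i < i2 → (∀ t, i < t → t ≤ i2 → ¬ Nw g t x) →
    ∀ b, N g - z g i ≤ b → b ≤ N g - z g i2 →
      RK.ms (muw g c1 x) (N g - z g i) b ≤
        2 * RK.nd (fun k => uw g x k = true) (N g - z g i) b + a
  fib : ∀ h m m', ∑ i ∈ I.filter (fun i => Fs g x h i ∧ M g i x = m),
    ∑ y ∈ (Y i).filter (fun y => M g i y = m'), w i y ≤ C₀

open Classical in
/-- the bound of the fibres from uniqueness -/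
theorem fib_of_uni {x : ℕ} {I : Finset ℕ} {Y : ℕ → Finset ℕ} {w : ℕ → ℕ → ℝ} {C₀ : ℝ}
    (hC0 : 0 ≤ C₀) (hw : ∀ i ∈ I, ∀ y ∈ Y i, w i y ≤ C₀)
    (uni : ∀ i ∈ I, ∀ i2 ∈ I, i ≤ i2 → ∀ y ∈ Y i, ∀ y2 ∈ Y i2,
      (∀ t, i < t → t ≤ i2 → ¬ Nw g t x) → M g i x = M g i2 x → M g i y = M g i2 y2 →
      i = i2 ∧ y = y2) (h m m' : ℕ) :
    ∑ i ∈ I.filter (fun i => Fs g x h i ∧ M g i x = m),
      ∑ y ∈ (Y i).filter (fun y => M g i y = m'), w i y ≤ C₀ := by
  by_cases hex : ∃ i ∈ I.filter (fun i => Fs g x h i ∧ M g i x = m),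
      ∃ y ∈ (Y i).filter (fun y => M g i y = m'), True
  · obtain ⟨i, hi, y, hy, -⟩ := hex
    obtain ⟨k1, k2, k3⟩ := mem_filter.1 hi
    obtain ⟨l1, l2⟩ := mem_filter.1 hy
    have key : ∀ i2 ∈ I.filter (fun i => Fs g x h i ∧ M g i x = m),
        ∀ y2 ∈ (Y i2).filter (fun y => M g i2 y = m'), i2 = i ∧ y2 = y := by
      intro i2 hi2 y2 hy2
      obtain ⟨a1, a2, a3⟩ := mem_filter.1 hi2
      obtain ⟨b1, b2⟩ := mem_filter.1 hy2
      rcases le_total i i2 with hle | hle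
      · obtain ⟨e1, e2⟩ := uni i k1 i2 a1 hle y l1 y2 b1
          (fun t ht ht' => a2.2.2.2 t (lt_of_le_of_lt k2.2.1 ht) ht') (k3.trans a3.symm)
          (l2.trans b2.symm)
        exact ⟨e1.symm, e2.symm⟩
      · exact uni i2 a1 i k1 hle y2 b1 y l1
          (fun t ht ht' => k2.2.2.2 t (lt_of_le_of_lt a2.2.1 ht) ht') (a3.trans k3.symm)
          (b2.trans l2.symm)
    rw [sum_eq_single_of_mem i hi fun i2 hi2 hne => sum_eq_zero fun y2 hy2 =>
      absurd (key i2 hi2 y2 hy2).1 hne]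
    rw [sum_eq_single_of_mem y hy fun y2 hy2 hne => absurd (key i hi y2 hy2).2 hne]
    exact hw i k1 y l1
  · push Not at hex
    refine le_of_eq_of_le (sum_eq_zero fun i hi => sum_eq_zero fun y hy => ?_) hC0
    exact (hex i hi y hy).elim

open Classical in
/-- the weight of the partners over a hybrid word, in one phase -/
noncomputable def GO (g : Cfg) (x : ℕ) (I : Finset ℕ) (Y : ℕ → Finset ℕ) (w : ℕ → ℕ → ℝ)
    (j p : ℕ) (v : Fin (N g) → Fin (Eb g + 1)) : ℝ :=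
  ∑ i ∈ I.filter (fun i => InPh (NwP g x) j (N g - z g i)),
    if N g - z g i = p then ∑ y ∈ (Y i).filter (fun y => hbw g i y x = v), w i y else 0

section

variable {x : ℕ} {I : Finset ℕ} {Y : ℕ → Finset ℕ} {w : ℕ → ℕ → ℝ} {c1 a C₀ : ℝ}

theorem OldI.GO_nonneg (h : OldI g c1 x I Y w a C₀) (j p : ℕ)
    (v : Fin (N g) → Fin (Eb g + 1)) : 0 ≤ GO g x I Y w j p v := by
  classical
  refine sum_nonneg fun i hi => ?_
  split_ifs
  · exact sum_nonneg fun y hy => h.nonneg i (mem_filter.1 hi).1 y (mem_filter.1 hy).1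
  · exact le_rfl

open Classical in
/-- the coupling: the partners with the same hybrid word -/
theorem OldI.coup (hJ : JsOK g.K g.Js) (hX : g.Js ≤ g.X) (hV : g.V ⊆ Icc 1 (N g))
    (hx : x ∈ g.V) (h : OldI g c1 x I Y w a C₀) {j : ℕ} (hj : j ∈ NwP g x) (e' : ℕ)
    (v : Fin (N g) → Fin (Eb g + 1)) (P : Finset ℕ)
    (hP : ∀ p ∈ P, p ≤ e' ∧ Tri (fun _ => 0) (wo g x) p e') :
    ∑ p ∈ P, GO g x I Y w j p v ≤ C₀ := by
  obtain ⟨h0, -, -, hnew, hpos⟩ := mem_NwP.1 hj
  have e1 : ∑ p ∈ P, GO g x I Y w j p v =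
      ∑ i ∈ I.filter (fun i => InPh (NwP g x) j (N g - z g i)), if N g - z g i ∈ P then
        ∑ y ∈ (Y i).filter (fun y => hbw g i y x = v), w i y else 0 := by
    unfold GO
    rw [sum_comm]
    refine sum_congr rfl fun i _ => ?_
    rw [sum_ite_eq]
  rw [e1]
  by_cases hex : ∃ i ∈ I, InPh (NwP g x) j (N g - z g i) ∧ N g - z g i ∈ P ∧
      ∃ y ∈ Y i, hbw g i y x = v
  · obtain ⟨i, hi, hip, hiP, y, hy, hyv⟩ := hex
    have hst : ∀ i' ∈ I, InPh (NwP g x) j (N g - z g i') → Fs g x h0 i' := fun i' hi' hp' =>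
      Fs_of_inPh hJ hX hV hx (h.st i' hi').2.1 hj hp' (h.st i' hi').2.2 hnew hpos
    refine le_trans ?_ (h.fib h0 (M g i x) (M g i y))
    rw [sum_filter, sum_filter (fun i' => Fs g x h0 i' ∧ M g i' x = M g i x)]
    refine sum_le_sum fun i' hi' => ?_
    have hR : 0 ≤ if Fs g x h0 i' ∧ M g i' x = M g i x then
        ∑ y' ∈ (Y i').filter (fun y' => M g i' y' = M g i y), w i' y' else 0 := by
      split_ifs
      · exact sum_nonneg fun y' hy' => h.nonneg i' hi' y' (mem_filter.1 hy').1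
      · exact le_rfl
    by_cases hq : InPh (NwP g x) j (N g - z g i') ∧ N g - z g i' ∈ P ∧
        ∃ y' ∈ Y i', hbw g i' y' x = v
    · obtain ⟨q1, q2, y', hy', hyv'⟩ := hq
      rw [if_pos q1, if_pos q2]
      -- the deficits agree
      have hM : M g i' x = M g i x ∧ ∀ y'' ∈ Y i', hbw g i' y'' x = v →
          M g i' y'' = M g i y := by
        rcases le_total i i' with hle | hle
        · have ht : Tri (fun _ => 0) (wo g x) (N g - z g i) (N g - z g i') := fun k k1 k2 =>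
            (hP _ hiP).2 k k1 (lt_of_lt_of_le k2 (hP _ q2).1)
          exact ⟨(M_eq_of_tri hV hx hle (zs_le_z hJ hX i') ht).symm, fun y'' hy'' hv'' =>
            (M_hbw2 hle (zs_le_z hJ hX i') (h.sub i hi hy) (h.sub i' hi' hy'')
              (hyv.trans hv''.symm) ht).symm⟩
        · have ht : Tri (fun _ => 0) (wo g x) (N g - z g i') (N g - z g i) := fun k k1 k2 =>
            (hP _ q2).2 k k1 (lt_of_lt_of_le k2 (hP _ hiP).1)
          exact ⟨M_eq_of_tri hV hx hle (zs_le_z hJ hX i) ht, fun y'' hy'' hv'' =>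
            M_hbw2 hle (zs_le_z hJ hX i) (h.sub i' hi' hy'') (h.sub i hi hy)
              (hv''.trans hyv.symm) ht⟩
      rw [if_pos ⟨hst i' hi' q1, hM.1⟩]
      refine sum_le_sum_of_subset_of_nonneg (fun y'' hy'' => ?_) fun y'' hy'' _ =>
        h.nonneg i' hi' y'' (mem_filter.1 hy'').1
      obtain ⟨r1, r2⟩ := mem_filter.1 hy''
      exact mem_filter.2 ⟨r1, hM.2 y'' r1 r2⟩
    · refine le_trans (le_of_eq ?_) hR
      split_ifs with q1 q2
      · refine sum_eq_zero fun y' hy' => ?_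
        obtain ⟨r1, r2⟩ := mem_filter.1 hy'
        exact absurd ⟨q1, q2, y', r1, r2⟩ hq
      · rfl
      · rfl
  · refine le_of_eq_of_le (sum_eq_zero fun i hi => ?_) h.C0_nonneg
    obtain ⟨h1, h2⟩ := mem_filter.1 hi
    split_ifs with h3
    · refine sum_eq_zero fun y hy => ?_
      obtain ⟨r1, r2⟩ := mem_filter.1 hy
      exact absurd ⟨i, h1, h2, h3, y, r1, r2⟩ hex
    · rfl

/-- the row of one stage -/
noncomputable def rowf (g : Cfg) (c1 : ℝ) (x : ℕ) (Y : ℕ → Finset ℕ) (w : ℕ → ℕ → ℝ)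
    (i : ℕ) : ℝ :=
  Real.exp (-RK.W (fun k => uw g x k = true) (muw g c1 x) (N g - z g i)) *
    ∑ y ∈ Y i, Wt g i y *
      (Real.exp (RK.W (fun k => uw g y k = true) (muw g c1 y) (N g - z g i)) * w i y)

theorem OldI.rowf_nonneg (h : OldI g c1 x I Y w a C₀) {i : ℕ} (hi : i ∈ I) :
    0 ≤ rowf g c1 x Y w i :=
  mul_nonneg (Real.exp_pos _).le (sum_nonneg fun y hy => mul_nonneg (Wt_nonneg i y)
    (mul_nonneg (Real.exp_pos _).le (h.nonneg i hi y hy)))

open Classical in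
/-- **one phase of the old row in numbers** -/
theorem OldI.phase (hJ : JsOK g.K g.Js) (hX : g.Js ≤ g.X) (hV : g.V ⊆ Icc 1 (N g)) {c : ℝ}
    (h1 : 0 < c1) (h1e : c1 * Real.exp 24 ≤ 1) (hc : 0 < c) (hc1 : c ≤ 1)
    (hz : 4 ≤ c1 * zs g) (hx : x ∈ g.V) (h : OldI g c1 x I Y w a C₀) {j : ℕ}
    (hj : j ∈ NwP g x) {w₀ : ℝ}
    (hw : ∀ k, j ≤ k → k ≤ nx (NwP g x) (N g) j →
      w₀ ≤ RK.W (fun k => uw g x k = true) (muw g c1 x) k) :
    ∑ i ∈ I.filter (fun i => InPh (NwP g x) j (N g - z g i)), rowf g c1 x Y w i ≤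
      3 * Real.exp (3 * a) * C₀ * (7 / 4) * Real.exp (-w₀) := by
  have H := sys_base hJ hX hV h1 h1e hc hc1 hz (Subset.refl g.V) hx
  have e2 : (fun k => uw g x k = true) = dvw (fun _ => 0) (wo g x) := by
    funext k
    exact propext (uw_dvw x k)
  obtain ⟨h0, -, -, hnew, hpos⟩ := mem_NwP.1 hj
  set I' := I.filter (fun i => InPh (NwP g x) j (N g - z g i)) with hI'
  set P := I'.image (fun i => N g - z g i) with hP
  have hPe : ∀ p ∈ P, j ≤ p ∧ p ≤ nx (NwP g x) (N g) j := by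
    intro p hp
    obtain ⟨i, hi, rfl⟩ := mem_image.1 hp
    have h3 := (mem_filter.1 hi).2
    exact ⟨h3.1, h3.le_nx (Nat.sub_le _ _)⟩
  have hst : ∀ i ∈ I', i ∈ I ∧ Fs g x h0 i := fun i hi => by
    obtain ⟨h2, h3⟩ := mem_filter.1 hi
    exact ⟨h2, Fs_of_inPh hJ hX hV hx (h.st i h2).2.1 hj h3 (h.st i h2).2.2 hnew hpos⟩
  have hrow := phase_row H (σ := fun _ => 1) (fun _ => zero_le_one) (wo g x) (J := P)
    (lo := j) (e := nx (NwP g x) (N g) j) hPe (nx_le j) h.a_nonneg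
    (fun p hp p' hp' hlt b hb1 hb2 => by
      obtain ⟨i, hi, rfl⟩ := mem_image.1 hp
      obtain ⟨i2, hi2, rfl⟩ := mem_image.1 hp'
      have hii : i < i2 := by
        by_contra hcon
        have := z_anti g (show i2 ≤ i by omega)
        omega
      obtain ⟨k1, k2⟩ := hst i hi
      obtain ⟨k3, k4⟩ := hst i2 hi2
      have h3 := h.link i k1 i2 k3 hii
        (fun t ht ht' => k4.2.2.2 t (lt_of_le_of_lt k2.2.1 ht) ht') b hb1 hb2
      rw [e2] at h3
      exact h3)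
    (G := GO g x I Y w j) (fun p v => h.GO_nonneg j p v) h.C0_nonneg
    (fun e' _ z' => h.coup hJ hX hV hx hj e' _ _ fun p hp => by
      obtain ⟨-, q1, q2, -⟩ := mem_filter.1 hp
      exact ⟨q1, q2⟩)
    (w := w₀) (fun k k1 k2 => by
      have := hw k k1 k2
      rw [e2] at this
      exact this)
  have hD := Dm_one (π := wn g x) (wn_sum hx) (wo g x)
  have hbd : 3 * Real.exp (3 * a) * C₀ * Real.exp (-w₀) * Dm (wn g x) (fun _ => 1) (wo g x) ≤
      3 * Real.exp (3 * a) * C₀ * (7 / 4) * Real.exp (-w₀) := by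
    have h3 := mul_le_mul_of_nonneg_left hD (mul_nonneg (mul_nonneg (mul_nonneg
      (by norm_num : (0 : ℝ) ≤ 3) (Real.exp_pos (3 * a)).le) h.C0_nonneg) (Real.exp_pos (-w₀)).le)
    linarith
  refine le_trans ?_ (hrow.trans hbd)
  -- every stage
  have hone : ∀ i ∈ I', rowf g c1 x Y w i ≤
      Real.exp (-RK.W (dvw (fun _ => 0) (wo g x)) (muw g c1 x) (N g - z g i)) *
        cE (wn g x) (N g - z g i) (fun v => (∑ y ∈ (Y i).filter (fun y => hbw g i y x = v),
          w i y) * Real.exp (RK.W (dvw (fun _ => 0) v) (muw g c1 x) (N g - z g i))) (wo g x) := by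
    intro i hi
    obtain ⟨k1, k2⟩ := hst i hi
    unfold rowf
    rw [e2]
    refine mul_le_mul_of_nonneg_left ?_ (Real.exp_pos _).le
    have h3 := out_row_G (zs_le_z hJ hX i) hx (Y i) (h.sub i k1) (h.cell i k1) (h.nonneg i k1)
      (Φ := fun v => Real.exp (RK.W (dvw (fun _ => 0) v) (muw g c1 x) (N g - z g i)))
      (fun _ => (Real.exp_pos _).le)
    refine le_trans (le_of_eq (sum_congr rfl fun y hy => ?_)) h3
    rw [W_hbw (h.cell i k1 y hy) c1 le_rfl]
    ring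
  refine (sum_le_sum hone).trans ?_
  -- group the stages by their positions
  have hgr : ∀ p ∈ P, ∑ i ∈ I'.filter (fun i => N g - z g i = p),
      Real.exp (-RK.W (dvw (fun _ => 0) (wo g x)) (muw g c1 x) (N g - z g i)) *
        cE (wn g x) (N g - z g i) (fun v => (∑ y ∈ (Y i).filter (fun y => hbw g i y x = v),
          w i y) * Real.exp (RK.W (dvw (fun _ => 0) v) (muw g c1 x) (N g - z g i))) (wo g x) =
      Real.exp (-RK.W (dvw (fun _ => 0) (wo g x)) (muw g c1 x) p) *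
        cE (wn g x) p (fun v => Real.exp (RK.W (dvw (fun _ => 0) v) (muw g c1 x) p) *
          (GO g x I Y w j p v * (1 : ℝ) ^ 3)) (wo g x) := by
    intro p _
    have e3 : (fun v => Real.exp (RK.W (dvw (fun _ => 0) v) (muw g c1 x) p) *
        (GO g x I Y w j p v * (1 : ℝ) ^ 3)) =
        fun v => ∑ i ∈ I'.filter (fun i => N g - z g i = p),
          (∑ y ∈ (Y i).filter (fun y => hbw g i y x = v), w i y) *
            Real.exp (RK.W (dvw (fun _ => 0) v) (muw g c1 x) p) := by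
      funext v
      rw [← sum_mul, one_pow, mul_one, mul_comm]
      congr 1
      unfold GO
      rw [← sum_filter]
    rw [e3, cE_sum' (wn g x) p, mul_sum]
    refine sum_congr rfl fun i hi => ?_
    rw [(mem_filter.1 hi).2]
  rw [← sum_congr rfl hgr]
  refine le_of_eq ?_
  rw [sum_fiberwise_of_maps_to (fun i hi => mem_image_of_mem _ hi)]

end

open Classical in
/-- **THE OLD ROW in numbers**, families -/
theorem old_row_fam (hJ : JsOK g.K g.Js) (hX : g.Js ≤ g.X) (hV : g.V ⊆ Icc 1 (N g)) {c1 c : ℝ}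
    (h1 : 0 < c1) (h1e : c1 * Real.exp 24 ≤ 1) (hc : 0 < c) (hc1 : c ≤ 1)
    (hz : 4 ≤ c1 * zs g) {x : ℕ} (hx : x ∈ g.V) {ι : Type*} (AA : Finset ι) {I : ι → Finset ℕ}
    {Y : ι → ℕ → Finset ℕ} {w : ι → ℕ → ℕ → ℝ} {a C₀ : ℝ}
    (h : ∀ α ∈ AA, OldI g c1 x (I α) (Y α) (w α) a C₀) {lam : ι → ℝ} {Lam : ℝ}
    (hlam : ∀ α ∈ AA, 0 ≤ lam α) (hC0 : 0 ≤ C₀) (hLam : 0 ≤ Lam)
    (hsum : ∀ k, 1 ≤ k → k ≤ nst g → Nw g k x →
      ∑ α ∈ AA.filter (fun α => ∃ i ∈ I α, Fs g x k i), lam α ≤ Lam) :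
    ∑ α ∈ AA, lam α * ∑ i ∈ I α, Vp (c * c1 / 8) (Pyw g c1 x) (NwP g x) (N g - z g i) *
      (Real.exp (-RK.W (fun k => uw g x k = true) (muw g c1 x) (N g - z g i)) *
        ∑ y ∈ Y α i, Wt g i y *
          (Real.exp (RK.W (fun k => uw g y k = true) (muw g c1 y) (N g - z g i)) * w α i y)) ≤
      255 * Real.exp (3 * a) * C₀ * Lam / (c * c1 / 8) * (7 / 4) := by
  have H := sys_base hJ hX hV h1 h1e hc hc1 hz (Subset.refl g.V) hx
  have hκ0 := H.κ_pos
  have hκ1 := H.κ_le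
  have hP := Pos_w hJ hX hV h1 (by linarith) hx
  have hμ : ∀ k, 0 ≤ muw g c1 x k := muw_nonneg h1.le x
  set κ := c * c1 / 8 with hκ
  have hV0 : ∀ p, 0 ≤ Vp κ (Pyw g c1 x) (NwP g x) p := fun p => (Vp_bounds hκ0.le hκ1 p).1
  set W0 := RK.W (fun k => uw g x k = true) (muw g c1 x) with hW0
  -- the sum over the phases
  set F : ℕ → ℝ := fun j => ∑ α ∈ AA, lam α *
    ∑ i ∈ (I α).filter (fun i => InPh (NwP g x) j (N g - z g i)), rowf g c1 x (Y α) (w α) i
    with hF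
  have hle : ∑ α ∈ AA, lam α * ∑ i ∈ I α, Vp κ (Pyw g c1 x) (NwP g x) (N g - z g i) *
      rowf g c1 x (Y α) (w α) i ≤ ∑ j ∈ NwP g x, F j * Vp κ (Pyw g c1 x) (NwP g x) j := by
    have e1 : ∑ j ∈ NwP g x, F j * Vp κ (Pyw g c1 x) (NwP g x) j =
        ∑ α ∈ AA, lam α * ∑ j ∈ NwP g x,
          ∑ i ∈ (I α).filter (fun i => InPh (NwP g x) j (N g - z g i)),
            Vp κ (Pyw g c1 x) (NwP g x) (N g - z g i) * rowf g c1 x (Y α) (w α) i := by
      rw [hF]
      simp only [sum_mul]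
      rw [sum_comm]
      refine sum_congr rfl fun α _ => ?_
      rw [mul_sum]
      refine sum_congr rfl fun j _ => ?_
      rw [mul_assoc, sum_mul]
      congr 1
      refine sum_congr rfl fun i hi => ?_
      rw [Vp_of_inPh (mem_filter.1 hi).2]
      ring
    rw [e1]
    refine sum_le_sum fun α hα => mul_le_mul_of_nonneg_left ?_ (hlam α hα)
    have hf0 : ∀ i ∈ I α, 0 ≤ Vp κ (Pyw g c1 x) (NwP g x) (N g - z g i) *
        rowf g c1 x (Y α) (w α) i := fun i hi => mul_nonneg (hV0 _) ((h α hα).rowf_nonneg hi)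
    have e2 : ∑ j ∈ NwP g x, ∑ i ∈ (I α).filter (fun i => InPh (NwP g x) j (N g - z g i)),
        Vp κ (Pyw g c1 x) (NwP g x) (N g - z g i) * rowf g c1 x (Y α) (w α) i =
        ∑ i ∈ I α, ∑ j ∈ NwP g x, if InPh (NwP g x) j (N g - z g i) then
          Vp κ (Pyw g c1 x) (NwP g x) (N g - z g i) * rowf g c1 x (Y α) (w α) i else 0 := by
      rw [sum_comm]
      refine sum_congr rfl fun j _ => ?_
      rw [sum_filter]
    rw [e2]
    refine sum_le_sum fun i hi => ?_
    obtain ⟨k, hk⟩ := exists_Fs ((h α hα).st i hi).2.2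
    have hk1 := hk.mem_NwP ((h α hα).st i hi).2.1
    have hk2 := hk.inPh hJ hX
    refine le_trans (le_of_eq ?_) (single_le_sum (f := fun j =>
      if InPh (NwP g x) j (N g - z g i) then
        Vp κ (Pyw g c1 x) (NwP g x) (N g - z g i) * rowf g c1 x (Y α) (w α) i else 0)
      (fun j _ => by
        split_ifs
        · exact hf0 i hi
        · exact le_rfl) hk1)
    rw [if_pos hk2]
  set A := 3 * Real.exp (3 * a) * C₀ * (7 / 4) * Lam with hA
  have hA0 : 0 ≤ A := by positivity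
  -- one phase
  have hph : ∀ j ∈ NwP g x, ∀ w₀, (∀ k, j ≤ k → k ≤ nx (NwP g x) (N g) j → w₀ ≤ W0 k) →
      F j ≤ A * Real.exp (-w₀) := by
    intro j hj w₀ hw
    obtain ⟨k, hk1, hk2, hnew, hpos⟩ := mem_NwP.1 hj
    have hB0 : 0 ≤ 3 * Real.exp (3 * a) * C₀ * (7 / 4) * Real.exp (-w₀) := by positivity
    have h3 : F j ≤ ∑ α ∈ AA.filter (fun α => ∃ i ∈ I α, Fs g x k i),
        lam α * (3 * Real.exp (3 * a) * C₀ * (7 / 4) * Real.exp (-w₀)) := by
      rw [hF, sum_filter]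
      refine sum_le_sum fun α hα => ?_
      have h4 := (h α hα).phase hJ hX hV h1 h1e hc hc1 hz hx hj hw
      split_ifs with hex
      · exact mul_le_mul_of_nonneg_left h4 (hlam α hα)
      · have h5 : (I α).filter (fun i => InPh (NwP g x) j (N g - z g i)) = ∅ := by
          refine filter_eq_empty_iff.2 fun i hi hip => hex ⟨i, hi, ?_⟩
          exact Fs_of_inPh hJ hX hV hx ((h α hα).st i hi).2.1 hj hip ((h α hα).st i hi).2.2
            hnew hpos
        rw [h5, sum_empty, mul_zero]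
    refine h3.trans ?_
    rw [← sum_mul]
    have h6 := mul_le_mul_of_nonneg_right (hsum k hk1 hk2 hnew) hB0
    refine h6.trans (le_of_eq ?_)
    rw [hA]
    ring
  have h3 := chain_sum (Pay := Pyw g c1 x) hκ0 hκ1 (a := A) (b := 21 * A) hA0 (by positivity)
    (w := W0) (fun k => W_nonneg k) (F := F) (NwP g x)
    (fun j hj _ => by
      have := hph j hj 0 fun k _ _ => W_nonneg k
      simpa using this)
    (fun j hj hp => by
      refine (hph j hj (W0 j - 3) (hP.low hμ hj hp)).trans ?_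
      have e1 : Real.exp (-(W0 j - 3)) = Real.exp 3 * Real.exp (-W0 j) := by
        rw [← Real.exp_add]
        ring_nf
      rw [e1]
      have e2 := mul_le_mul_of_nonneg_right exp_three (Real.exp_pos (-W0 j)).le
      have e3 := mul_le_mul_of_nonneg_left e2 hA0
      linarith)
    (fun j hj s hs hjs hn hp => hP.incr hμ hj hp hs hjs hn)
  refine hle.trans (h3.trans (le_of_eq ?_))
  rw [hA]
  ring

/-- **THE OLD ROW in numbers**, one family -/
theorem old_row_num (hJ : JsOK g.K g.Js) (hX : g.Js ≤ g.X) (hV : g.V ⊆ Icc 1 (N g)) {c1 c : ℝ}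
    (h1 : 0 < c1) (h1e : c1 * Real.exp 24 ≤ 1) (hc : 0 < c) (hc1 : c ≤ 1)
    (hz : 4 ≤ c1 * zs g) {x : ℕ} (hx : x ∈ g.V) {I : Finset ℕ}
    {Y : ℕ → Finset ℕ} {w : ℕ → ℕ → ℝ} {a C₀ : ℝ} (h : OldI g c1 x I Y w a C₀) :
    ∑ i ∈ I, Vp (c * c1 / 8) (Pyw g c1 x) (NwP g x) (N g - z g i) *
      (Real.exp (-RK.W (fun k => uw g x k = true) (muw g c1 x) (N g - z g i)) *
        ∑ y ∈ Y i, Wt g i y *
          (Real.exp (RK.W (fun k => uw g y k = true) (muw g c1 y) (N g - z g i)) * w i y)) ≤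
      255 * Real.exp (3 * a) * C₀ / (c * c1 / 8) * (7 / 4) := by
  classical
  have h2 := old_row_fam hJ hX hV h1 h1e hc hc1 hz hx (ι := Unit) {()} (I := fun _ => I)
    (Y := fun _ => Y) (w := fun _ => w) (fun _ _ => h) (lam := fun _ => 1) (Lam := 1)
    (fun _ _ => zero_le_one) h.C0_nonneg zero_le_one (fun k _ _ _ => by
      refine (sum_le_sum_of_subset_of_nonneg (filter_subset _ _) fun _ _ _ =>
        zero_le_one).trans ?_
      simp)
  rw [sum_singleton, one_mul, mul_one] at h2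
  exact h2

end Vale.P028.SK
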