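import Vale.Agent.P028.H132.Dmax
import Vale.Agent.P028.H132.Rows

/-!
# The energy of the pairs with the same future
-/

namespace Vale.P028.RK

open Finset Vale.P028.RN

variable {n : ℕ} {L : Type*} [Fintype L]

/-- the words with their positions -/
structure Sys (π : Fin n → L → ℝ) (o : Fin n → L) (μ : ℕ → ℝ) (c κ ε : ℝ)
    (Ch : (Fin n → L) → Finset ℕ) (Pay : (Fin n → L) → ℕ → Prop) : Prop where
  π_nonneg : ∀ j m, 0 ≤ π j m
  π_one : ∀ j, ∑ m, π j m = 1
  μ_nonneg : ∀ k, 0 ≤ μ k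
  μ_le : ∀ k, μ k ≤ 1 / 4
  c_pos : 0 < c
  c_le : c ≤ 1
  κ_pos : 0 < κ
  κ_le : κ ≤ 1
  ε_nonneg : 0 ≤ ε
  ε_small : ε * Real.exp 24 ≤ 1
  dev : ∀ j : Fin n, 1 - π j (o j) ≤ ε * μ j
  pos : ∀ ω, Pos (dvw o ω) μ n (Ch ω) (Pay ω)

variable {π : Fin n → L → ℝ} {o : Fin n → L} {μ : ℕ → ℝ} {c κ ε : ℝ}
  {Ch : (Fin n → L) → Finset ℕ} {Pay : (Fin n → L) → ℕ → Prop}

theorem Sys.μ_le_one (H : Sys π o μ c κ ε Ch Pay) (k : ℕ) : μ k ≤ 1 := by
  linarith [H.μ_le k]

theorem Sys.hc (H : Sys π o μ c κ ε Ch Pay) (k : ℕ) : 0 ≤ c * μ k ∧ c * μ k ≤ 1 :=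
  ⟨mul_nonneg H.c_pos.le (H.μ_nonneg k), mul_le_one₀ H.c_le (H.μ_nonneg k) (H.μ_le_one k)⟩

/-- exchange of the two members -/
theorem pair_swap (π : Fin n → L → ℝ) (i : ℕ) (G : (Fin n → L) → (Fin n → L) → ℝ) :
    Ex π (fun q => cE π i (fun r => G q r) q) = Ex π (fun r => cE π i (fun q => G q r) r) := by
  have e : ∀ f : (Fin n → L) → (Fin n → L) → ℝ,
      ∑ ω, Pr π ω * ∑ z, Pr π z * f ω z =
      ∑ x : (Fin n → L) × (Fin n → L), Pr π x.1 * Pr π x.2 * f x.1 x.2 := by
    intro f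
    rw [← univ_product_univ, sum_product]
    refine sum_congr rfl fun ω _ => ?_
    rw [mul_sum]
    exact sum_congr rfl fun z _ => by ring
  unfold Ex cE
  rw [e (fun q z => G q (mix i z q)), e (fun q z => G (mix i z q) q)]
  refine Fintype.sum_bijective (fun x : (Fin n → L) × (Fin n → L) => (mix i x.2 x.1, mix i x.1 x.2))
    ?_ _ _ fun x => ?_
  · refine Function.Involutive.bijective fun x => ?_
    simp only [mix_swap]
  · simp only
    have h3 := Pr_mix π i x.2 x.1
    rw [mix_swap]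
    linear_combination (-G x.1 (mix i x.2 x.1)) * h3

theorem cauchy (hπ : ∀ j m, 0 ≤ π j m) (f g : (Fin n → L) → ℝ) :
    Ex π (fun ω => f ω * g ω) ≤
      Real.sqrt (Ex π (fun ω => f ω ^ 2)) * Real.sqrt (Ex π (fun ω => g ω ^ 2)) := by
  rw [← Real.sqrt_mul (Ex_nonneg hπ fun ω => sq_nonneg _)]
  refine Real.le_sqrt_of_sq_le ?_
  unfold Ex
  have h := sum_mul_sq_le_sq_mul_sq univ (fun ω => Real.sqrt (Pr π ω) * f ω)
    (fun ω => Real.sqrt (Pr π ω) * g ω)
  have e : ∀ ω, Real.sqrt (Pr π ω) * Real.sqrt (Pr π ω) = Pr π ω :=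
    fun ω => Real.mul_self_sqrt (Pr_nonneg hπ ω)
  have e1 : ∑ ω, Real.sqrt (Pr π ω) * f ω * (Real.sqrt (Pr π ω) * g ω) =
      ∑ ω, Pr π ω * (f ω * g ω) := by
    refine sum_congr rfl fun ω _ => ?_
    linear_combination (f ω * g ω) * e ω
  have e2 : ∀ f : (Fin n → L) → ℝ, ∑ ω, (Real.sqrt (Pr π ω) * f ω) ^ 2 =
      ∑ ω, Pr π ω * f ω ^ 2 := by
    intro f
    refine sum_congr rfl fun ω _ => ?_
    linear_combination (f ω ^ 2) * e ω
  rw [e1, e2, e2] at h
  exact h

/-- the pairing with the weighted maximal function -/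
theorem pair_Dm (hπ : ∀ j m, 0 ≤ π j m) (h1 : ∀ j, ∑ m, π j m = 1) {s σ : (Fin n → L) → ℝ} :
    Ex π (fun ω => s ω * Dm π σ ω) ≤ 5 * (Real.sqrt (Ex π (fun ω => s ω ^ 2)) *
      Real.sqrt (Ex π (fun ω => (σ ω ^ 3) ^ 2))) := by
  refine (cauchy hπ _ _).trans ?_
  have h2 := Dm_sq hπ h1 σ
  have e : ∀ ω, (σ ω ^ 3) ^ 2 = σ ω ^ 6 := fun ω => by ring
  simp only [e]
  have h3 : Real.sqrt (Ex π (fun ω => Dm π σ ω ^ 2)) ≤ 5 * Real.sqrt (Ex π (fun ω => σ ω ^ 6)) := by
    have h4 : 0 ≤ Ex π (fun ω => σ ω ^ 6) := Ex_nonneg hπ fun ω => by positivity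
    calc Real.sqrt (Ex π (fun ω => Dm π σ ω ^ 2)) ≤ Real.sqrt (5 ^ 2 * Ex π (fun ω => σ ω ^ 6)) :=
          Real.sqrt_le_sqrt (by linarith)
      _ = 5 * Real.sqrt (Ex π (fun ω => σ ω ^ 6)) := by
          rw [Real.sqrt_mul (by norm_num), Real.sqrt_sq (by norm_num)]
  calc Real.sqrt (Ex π (fun ω => s ω ^ 2)) * Real.sqrt (Ex π (fun ω => Dm π σ ω ^ 2)) ≤
        Real.sqrt (Ex π (fun ω => s ω ^ 2)) * (5 * Real.sqrt (Ex π (fun ω => σ ω ^ 6))) :=
        mul_le_mul_of_nonneg_left h3 (Real.sqrt_nonneg _)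
    _ = _ := by ring

/-- removing trivial labels from the average -/
theorem cE_le_of_triv (hπ : ∀ j m, 0 ≤ π j m) (h1 : ∀ j, ∑ m, π j m = 1) {i d : ℕ} (hid : i ≤ d)
    (hdn : d ≤ n) {g : (Fin n → L) → ℝ} (hg : ∀ ω, 0 ≤ g ω) {ω : Fin n → L}
    (hω : ∀ k, i ≤ k → k < d → ¬ dvw o ω k) :
    (∏ k ∈ Ico i d, (if h : k < n then π ⟨k, h⟩ (o ⟨k, h⟩) else 1)) * cE π i g ω ≤ cE π d g ω := by
  classical
  induction d, hid using Nat.le_induction with
  | base => simp
  | succ d hd ih =>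
    have ih := ih (by omega) fun k k1 k2 => hω k k1 (by omega)
    have hdn' : d < n := by omega
    have h2 := cE_succ π h1 ⟨d, hdn'⟩ g ω
    have h3 : ω ⟨d, hdn'⟩ = o ⟨d, hdn'⟩ := by
      by_contra hne
      exact hω d hd (Nat.lt_succ_self d) ⟨hdn', hne⟩
    have h4 : π ⟨d, hdn'⟩ (o ⟨d, hdn'⟩) * cE π d g ω ≤ cE π (d + 1) g ω := by
      have h5 := single_le_sum (f := fun m => π ⟨d, hdn'⟩ m * cE π d g
        (Function.update ω ⟨d, hdn'⟩ m)) (s := univ)
        (fun m _ => mul_nonneg (hπ _ _) (cE_nonneg hπ hg _)) (mem_univ (o ⟨d, hdn'⟩))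
      rw [← h2] at h5
      have h6 : Function.update ω ⟨d, hdn'⟩ (o ⟨d, hdn'⟩) = ω := by
        rw [← h3, Function.update_eq_self]
      simp only [h6] at h5
      exact h5
    rw [prod_Ico_succ_top hd, dif_pos hdn']
    calc (∏ k ∈ Ico i d, (if h : k < n then π ⟨k, h⟩ (o ⟨k, h⟩) else 1)) *
          π ⟨d, hdn'⟩ (o ⟨d, hdn'⟩) * cE π i g ω
        = π ⟨d, hdn'⟩ (o ⟨d, hdn'⟩) * ((∏ k ∈ Ico i d,
          (if h : k < n then π ⟨k, h⟩ (o ⟨k, h⟩) else 1)) * cE π i g ω) := by ring
      _ ≤ π ⟨d, hdn'⟩ (o ⟨d, hdn'⟩) * cE π d g ω := mul_le_mul_of_nonneg_left ih (hπ _ _)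
      _ ≤ _ := h4

/-- a product of numbers close to `1` -/
theorem prod_ge (A : Finset ℕ) (f x : ℕ → ℝ) (h0 : ∀ k ∈ A, 0 ≤ f k) (h1 : ∀ k ∈ A, f k ≤ 1)
    (hx : ∀ k ∈ A, 0 ≤ x k) (h : ∀ k ∈ A, 1 - x k ≤ f k) : 1 - ∑ k ∈ A, x k ≤ ∏ k ∈ A, f k := by
  classical
  induction A using Finset.induction_on with
  | empty => simp
  | insert a A ha ih =>
    rw [sum_insert ha, prod_insert ha]
    have ih := ih (fun k hk => h0 k (mem_insert_of_mem hk)) (fun k hk => h1 k (mem_insert_of_mem hk))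
      (fun k hk => hx k (mem_insert_of_mem hk)) (fun k hk => h k (mem_insert_of_mem hk))
    have a0 := h0 a (mem_insert_self _ _)
    have a1 := h1 a (mem_insert_self _ _)
    have a2 := h a (mem_insert_self _ _)
    have a3 : ∏ k ∈ A, f k ≤ 1 := prod_le_one (fun k hk => h0 k (mem_insert_of_mem hk))
      fun k hk => h1 k (mem_insert_of_mem hk)
    have a4 : 0 ≤ ∏ k ∈ A, f k := prod_nonneg fun k hk => h0 k (mem_insert_of_mem hk)
    have a5 := hx a (mem_insert_self _ _)
    nlinarith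

theorem Sys.triv_half (H : Sys π o μ c κ ε Ch Pay) {i d : ℕ} (hm : ms μ i d ≤ 3) :
    1 / 2 ≤ ∏ k ∈ Ico i d, (if h : k < n then π ⟨k, h⟩ (o ⟨k, h⟩) else 1) := by
  have hle : ∀ j : Fin n, π j (o j) ≤ 1 := fun j => by
    rw [← H.π_one j]
    exact single_le_sum (f := fun m => π j m) (fun m _ => H.π_nonneg j m) (mem_univ (o j))
  have h1 := prod_ge (Ico i d) (fun k => if h : k < n then π ⟨k, h⟩ (o ⟨k, h⟩) else 1)
    (fun k => ε * μ k)
    (fun k _ => by
      split_ifs
      · exact H.π_nonneg _ _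
      · norm_num)
    (fun k _ => by
      split_ifs
      · exact hle _
      · exact le_rfl)
    (fun k _ => mul_nonneg H.ε_nonneg (H.μ_nonneg k))
    (fun k _ => by
      split_ifs with hk
      · linarith [H.dev ⟨k, hk⟩]
      · linarith [mul_nonneg H.ε_nonneg (H.μ_nonneg k)])
  rw [← mul_sum] at h1
  have h2 : ε ≤ 1 / 25 := by
    have h3 := Real.add_one_le_exp (24 : ℝ)
    have h4 := H.ε_small
    have h5 := H.ε_nonneg
    nlinarith
  have h3 : ε * ms μ i d ≤ 1 / 25 * 3 :=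
    mul_le_mul h2 hm (ms_nonneg H.μ_nonneg _ _) (by norm_num)
  have h4 : ε * ∑ k ∈ Ico i d, μ k = ε * ms μ i d := rfl
  rw [h4] at h1
  linarith

/-- the first deviation after `i` -/
def FD (dv : ℕ → Prop) (i d : ℕ) : Prop := i ≤ d ∧ dv d ∧ ∀ k, i ≤ k → k < d → ¬ dv k

theorem FD.unique {dv : ℕ → Prop} {i d d' : ℕ} (h : FD dv i d) (h' : FD dv i d') : d = d' := by
  rcases lt_trichotomy d d' with h1 | h1 | h1
  · exact absurd h.2.1 (h'.2.2 d h.1 h1)
  · exact h1
  · exact absurd h'.2.1 (h.2.2 d' h'.1 h1)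

theorem exists_FD {dv : ℕ → Prop} {i k : ℕ} (hik : i ≤ k) (hk : dv k) :
    ∃ d, FD dv i d ∧ d ≤ k := by
  classical
  have hex : ∃ d, i ≤ d ∧ dv d := ⟨k, hik, hk⟩
  refine ⟨Nat.find hex, ⟨(Nat.find_spec hex).1, (Nat.find_spec hex).2, fun x hx hlt hd => ?_⟩,
    Nat.find_min' hex ⟨hik, hk⟩⟩
  exact Nat.find_min hex hlt ⟨hx, hd⟩

/-- the kernel hypotheses for the pairs whose member `r` is new, first part -/
structure Ker0 (κ : ℝ) (Ch : (Fin n → L) → Finset ℕ) (Pay : (Fin n → L) → ℕ → Prop)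
    (K : ℕ → (Fin n → L) → (Fin n → L) → ℝ) : Prop where
  nonneg : ∀ i q r, 0 ≤ K i q r
  new : ∀ i q z, K i q (mix i z q) ≠ 0 → i ∈ Ch (mix i z q)
  own₂ : ∀ i q z, K i q (mix i z q) ≤ Vt κ (Pay (mix i z q)) (Ch (mix i z q)) i

/-- the kernel hypotheses for the pairs whose member `r` is new -/
structure Ker (o : Fin n → L) (μ : ℕ → ℝ) (c κ : ℝ) (Ch : (Fin n → L) → Finset ℕ)
    (Pay : (Fin n → L) → ℕ → Prop) (K : ℕ → (Fin n → L) → (Fin n → L) → ℝ) : Prop
    extends Ker0 κ Ch Pay K where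
  own₁ : ∀ i q z, K i q (mix i z q) ≤ Vt κ (Pay q) (Ch q) i
  gap : ∀ i q z, i ∈ Ch (mix i z q) → nx (Ch (mix i z q)) n i < nx (Ch q) n i →
    K i q (mix i z q) ≤ UU (dvw o q) μ c (nx (Ch (mix i z q)) n i) (nx (Ch q) n i) *
      Vt κ (Pay q) (Ch q) (nx (Ch q) n i)

/-- the phase of `r` at `i` pays or is the last one -/
def Ty1 (Ch : (Fin n → L) → Finset ℕ) (Pay : (Fin n → L) → ℕ → Prop) (i : ℕ) (r : Fin n → L) :
    Prop := i ∈ Ch r ∧ (Pay r i ∨ ∀ t ∈ Ch r, t ≤ i)

/-- the phase of `r` at `i` does not pay and is not the last one -/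
def Ty3 (Ch : (Fin n → L) → Finset ℕ) (Pay : (Fin n → L) → ℕ → Prop) (i : ℕ) (r : Fin n → L) :
    Prop := i ∈ Ch r ∧ ¬ Pay r i ∧ ∃ t ∈ Ch r, i < t

section Main

variable {K : ℕ → (Fin n → L) → (Fin n → L) → ℝ} {s₁ s₂ σ₁ σ₂ : (Fin n → L) → ℝ}

open Classical in
/-- type 1 -/
theorem type1 (H : Sys π o μ c κ ε Ch Pay) (HK : Ker0 κ Ch Pay K) (hσ₁ : ∀ ω, 0 ≤ σ₁ ω)
    (hs₂ : ∀ ω, 0 ≤ s₂ ω) :
    ∑ i ∈ range (n + 1), Ex π (fun r => cE π i (fun q => σ₁ q ^ 3 * (s₂ r * (K i q r *
      if Ty1 Ch Pay i r then 1 else 0))) r) ≤ (1 / κ + 1) * Ex π (fun r => s₂ r * Dm π σ₁ r) := by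
  have hκ0 := H.κ_pos
  have hκ1 := H.κ_le
  have h1 : ∀ i ∈ range (n + 1), Ex π (fun r => cE π i (fun q => σ₁ q ^ 3 * (s₂ r * (K i q r *
      if Ty1 Ch Pay i r then 1 else 0))) r) ≤
      Ex π (fun r => (if Ty1 Ch Pay i r then Vt κ (Pay r) (Ch r) i else 0) *
        (s₂ r * Dm π σ₁ r)) := by
    intro i hi
    have hin : i ≤ n := by
      rw [mem_range] at hi
      omega
    refine Ex_mono H.π_nonneg fun r => ?_
    by_cases ht : Ty1 Ch Pay i r
    · simp only [if_pos ht]
      have hV := (Vt_bounds (Pay := Pay r) (Ch := Ch r) hκ0.le hκ1 i).1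
      have h2 : cE π i (fun q => σ₁ q ^ 3 * (s₂ r * (K i q r * 1))) r ≤
          Vt κ (Pay r) (Ch r) i * s₂ r * cE π i (fun q => Real.exp (W (dvw o q) μ i) *
            σ₁ q ^ 3) r := by
        unfold cE
        rw [mul_sum]
        refine sum_le_sum fun z _ => ?_
        have h3 : K i (mix i z r) r ≤ Vt κ (Pay r) (Ch r) i := by
          have := HK.own₂ i (mix i z r) r
          rwa [mix_mix, mix_self] at this
        have h4 : 1 ≤ Real.exp (W (dvw o (mix i z r)) μ i) := Real.one_le_exp (W_nonneg i)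
        have h5 : 0 ≤ σ₁ (mix i z r) ^ 3 := pow_nonneg (hσ₁ _) 3
        have h6 := Pr_nonneg H.π_nonneg z
        calc Pr π z * (σ₁ (mix i z r) ^ 3 * (s₂ r * (K i (mix i z r) r * 1)))
            ≤ Pr π z * (σ₁ (mix i z r) ^ 3 * (s₂ r * Vt κ (Pay r) (Ch r) i)) := by
              refine mul_le_mul_of_nonneg_left ?_ h6
              refine mul_le_mul_of_nonneg_left ?_ h5
              refine mul_le_mul_of_nonneg_left ?_ (hs₂ r)
              linarith
          _ = Vt κ (Pay r) (Ch r) i * s₂ r * (Pr π z * (1 * σ₁ (mix i z r) ^ 3)) := by ring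
          _ ≤ _ := by
              refine mul_le_mul_of_nonneg_left ?_ (mul_nonneg hV (hs₂ r))
              refine mul_le_mul_of_nonneg_left ?_ h6
              exact mul_le_mul_of_nonneg_right h4 h5
      refine h2.trans ?_
      rw [mul_assoc]
      refine mul_le_mul_of_nonneg_left ?_ hV
      exact mul_le_mul_of_nonneg_left (cE_exp_W_le H.π_nonneg H.π_one H.μ_nonneg H.μ_le H.ε_small
        H.dev hin hσ₁ r) (hs₂ r)
    · simp only [if_neg ht]
      simp [cE]
  refine (sum_le_sum h1).trans ?_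
  have e1 : ∑ i ∈ range (n + 1), Ex π (fun r => (if Ty1 Ch Pay i r then Vt κ (Pay r) (Ch r) i
      else 0) * (s₂ r * Dm π σ₁ r)) = Ex π (fun r => (∑ i ∈ range (n + 1),
        if Ty1 Ch Pay i r then Vt κ (Pay r) (Ch r) i else 0) * (s₂ r * Dm π σ₁ r)) := by
    unfold Ex
    rw [sum_comm]
    refine sum_congr rfl fun r _ => ?_
    beta_reduce
    rw [sum_mul, mul_sum]
  rw [e1, ← Ex_mul]
  refine Ex_mono H.π_nonneg fun r => ?_
  refine mul_le_mul_of_nonneg_right ?_ (mul_nonneg (hs₂ r) (Dm_nonneg _ _))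
  have h2 := row_pay (Pay := Pay r) hκ0 hκ1 (Ch r)
  have h3 := row_last (Pay := Pay r) hκ0 hκ1 (Ch r)
  refine le_trans ?_ (add_le_add h2 h3)
  have e2 : ∑ i ∈ (Ch r).filter (Pay r), Vt κ (Pay r) (Ch r) i +
      ∑ i ∈ (Ch r).filter (fun i => ∀ t ∈ Ch r, t ≤ i), Vt κ (Pay r) (Ch r) i =
      ∑ i ∈ Ch r, ((if Pay r i then Vt κ (Pay r) (Ch r) i else 0) +
        (if ∀ t ∈ Ch r, t ≤ i then Vt κ (Pay r) (Ch r) i else 0)) := by
    rw [sum_filter, sum_filter, sum_add_distrib]
  rw [e2]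
  have h4 : ∀ i, 0 ≤ Vt κ (Pay r) (Ch r) i := fun i => (Vt_bounds hκ0.le hκ1 i).1
  have h5 : Ch r ⊆ range (n + 1) := fun i hi => by
    rw [mem_range]
    have := (H.pos r).le i hi
    omega
  rw [← sum_filter]
  have h6 : (range (n + 1)).filter (fun i => Ty1 Ch Pay i r) ⊆ Ch r := by
    intro i hi
    exact (mem_filter.1 hi).2.1
  refine (sum_le_sum fun i hi => ?_).trans (sum_le_sum_of_subset_of_nonneg h6 fun i _ _ => ?_)
  · have h7 := (mem_filter.1 hi).2.2
    have h8 := h4 i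
    rcases h7 with h7 | h7
    · rw [if_pos h7]
      split_ifs <;> linarith
    · rw [if_pos h7]
      split_ifs <;> linarith
  · have h8 := h4 i
    split_ifs <;> linarith

open Classical in
/-- type 3, charged to the new member -/
theorem type3a (H : Sys π o μ c κ ε Ch Pay) (HK : Ker0 κ Ch Pay K) (hσ₁ : ∀ ω, 0 ≤ σ₁ ω)
    (hs₂ : ∀ ω, 0 ≤ s₂ ω) :
    ∑ i ∈ range (n + 1), Ex π (fun r => cE π i (fun q => σ₁ q ^ 3 * (s₂ r * (K i q r *
      if Ty3 Ch Pay i r then 21 * Real.exp (W (dvw o q) μ i - W (dvw o r) μ i) else 0))) r) ≤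
      84 / κ * Ex π (fun r => s₂ r * Dm π σ₁ r) := by
  have hκ0 := H.κ_pos
  have hκ1 := H.κ_le
  have h1 : ∀ i ∈ range (n + 1), Ex π (fun r => cE π i (fun q => σ₁ q ^ 3 * (s₂ r * (K i q r *
      if Ty3 Ch Pay i r then 21 * Real.exp (W (dvw o q) μ i - W (dvw o r) μ i) else 0))) r) ≤
      Ex π (fun r => (if Ty3 Ch Pay i r then 21 * (Real.exp (-W (dvw o r) μ i) *
        Vt κ (Pay r) (Ch r) i) else 0) * (s₂ r * Dm π σ₁ r)) := by
    intro i hi
    have hin : i ≤ n := by
      rw [mem_range] at hi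
      omega
    refine Ex_mono H.π_nonneg fun r => ?_
    by_cases ht : Ty3 Ch Pay i r
    · simp only [if_pos ht]
      have hV := (Vt_bounds (Pay := Pay r) (Ch := Ch r) hκ0.le hκ1 i).1
      have h2 : cE π i (fun q => σ₁ q ^ 3 * (s₂ r * (K i q r * (21 *
          Real.exp (W (dvw o q) μ i - W (dvw o r) μ i))))) r ≤
          21 * (Real.exp (-W (dvw o r) μ i) * Vt κ (Pay r) (Ch r) i) * s₂ r *
            cE π i (fun q => Real.exp (W (dvw o q) μ i) * σ₁ q ^ 3) r := by
        unfold cE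
        rw [mul_sum]
        refine sum_le_sum fun z _ => ?_
        beta_reduce
        have h3 : K i (mix i z r) r ≤ Vt κ (Pay r) (Ch r) i := by
          have := HK.own₂ i (mix i z r) r
          rwa [mix_mix, mix_self] at this
        have h5 : 0 ≤ σ₁ (mix i z r) ^ 3 := pow_nonneg (hσ₁ _) 3
        have h6 := Pr_nonneg H.π_nonneg z
        have e1 : Real.exp (W (dvw o (mix i z r)) μ i - W (dvw o r) μ i) =
            Real.exp (W (dvw o (mix i z r)) μ i) * Real.exp (-W (dvw o r) μ i) := by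
          rw [← Real.exp_add]
          ring_nf
        rw [e1]
        have h7 : 0 ≤ Pr π z * (σ₁ (mix i z r) ^ 3 * (s₂ r * (21 * (Real.exp (W (dvw o
            (mix i z r)) μ i) * Real.exp (-W (dvw o r) μ i))))) := by
          have := hs₂ r
          positivity
        have h8 := mul_le_mul_of_nonneg_left h3 h7
        linarith
      refine h2.trans ?_
      rw [mul_assoc _ (s₂ r)]
      refine mul_le_mul_of_nonneg_left ?_ (by positivity)
      exact mul_le_mul_of_nonneg_left (cE_exp_W_le H.π_nonneg H.π_one H.μ_nonneg H.μ_le H.ε_small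
        H.dev hin hσ₁ r) (hs₂ r)
    · simp only [if_neg ht]
      simp [cE]
  refine (sum_le_sum h1).trans ?_
  have e1 : ∑ i ∈ range (n + 1), Ex π (fun r => (if Ty3 Ch Pay i r then
      21 * (Real.exp (-W (dvw o r) μ i) * Vt κ (Pay r) (Ch r) i) else 0) * (s₂ r * Dm π σ₁ r)) =
      Ex π (fun r => (∑ i ∈ range (n + 1), if Ty3 Ch Pay i r then
        21 * (Real.exp (-W (dvw o r) μ i) * Vt κ (Pay r) (Ch r) i) else 0) *
          (s₂ r * Dm π σ₁ r)) := by
    unfold Ex
    rw [sum_comm]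
    refine sum_congr rfl fun r _ => ?_
    beta_reduce
    rw [sum_mul, mul_sum]
  rw [e1, ← Ex_mul]
  refine Ex_mono H.π_nonneg fun r => ?_
  refine mul_le_mul_of_nonneg_right ?_ (mul_nonneg (hs₂ r) (Dm_nonneg _ _))
  have h2 := row_np H.μ_nonneg hκ0 hκ1 (H.pos r)
  have h3 : ∑ i ∈ range (n + 1), (if Ty3 Ch Pay i r then
      21 * (Real.exp (-W (dvw o r) μ i) * Vt κ (Pay r) (Ch r) i) else 0) ≤
      21 * ∑ i ∈ (Ch r).filter (fun i => ¬ Pay r i), Real.exp (-W (dvw o r) μ i) *
        Vt κ (Pay r) (Ch r) i := by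
    rw [← sum_filter, mul_sum]
    refine sum_le_sum_of_subset_of_nonneg (fun i hi => ?_) fun i _ _ => ?_
    · have h4 := (mem_filter.1 hi).2
      exact mem_filter.2 ⟨h4.1, h4.2.1⟩
    · have := (Vt_bounds (Pay := Pay r) (Ch := Ch r) hκ0.le hκ1 i).1
      positivity
  have h4 : 84 / κ = 21 * (4 / κ) := by ring
  rw [h4]
  linarith

open Classical in
/-- type 3, charged to the old member -/
theorem type3b (H : Sys π o μ c κ ε Ch Pay) (hs₁ : ∀ ω, 0 ≤ s₁ ω)
    (hσ₂ : ∀ ω, 0 ≤ σ₂ ω) {Y : (Fin n → L) → ℕ → ℝ} (hY0 : ∀ q d, 0 ≤ Y q d)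
    (hKY : ∀ i q z d, Ty3 Ch Pay i (mix i z q) → K i q (mix i z q) ≠ 0 → FD (dvw o q) i d →
      K i q (mix i z q) ≤ Y q d) {R : ℝ} (hR : ∀ q, ∑ d ∈ (Ico 0 n).filter (dvw o q),
      Real.exp (-W (dvw o q) μ d) * Y q d ≤ R) :
    ∑ i ∈ range (n + 1), Ex π (fun q => cE π i (fun r => s₁ q * (σ₂ r ^ 3 * (K i q r *
      if Ty3 Ch Pay i r then ∑ d ∈ Ico 0 n, (if FD (dvw o q) i d then
        Real.exp (W (dvw o r) μ d - W (dvw o q) μ d) else 0) else 0))) q) ≤
      2 * R * Ex π (fun q => s₁ q * Dm π σ₂ q) := by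
  have hπ := H.π_nonneg
  -- the bound for one word
  have key : ∀ q : Fin n → L, ∑ i ∈ range (n + 1), cE π i (fun r => s₁ q * (σ₂ r ^ 3 * (K i q r *
      if Ty3 Ch Pay i r then ∑ d ∈ Ico 0 n, (if FD (dvw o q) i d then
        Real.exp (W (dvw o r) μ d - W (dvw o q) μ d) else 0) else 0))) q ≤
      2 * R * (s₁ q * Dm π σ₂ q) := by
    intro q
    -- the functions `g i d`
    set g : ℕ → ℕ → (Fin n → L) → ℝ := fun i d r =>
      if Ty3 Ch Pay i r ∧ FD (dvw o r) i d then Real.exp (W (dvw o r) μ d) * σ₂ r ^ 3 else 0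
      with hg
    have g0 : ∀ i d r, 0 ≤ g i d r := by
      intro i d r
      rw [hg]
      simp only
      split_ifs
      · have := hσ₂ r
        positivity
      · exact le_rfl
    -- step 1: use the bound of the kernel
    have a1 : ∀ i ∈ range (n + 1), cE π i (fun r => s₁ q * (σ₂ r ^ 3 * (K i q r *
        if Ty3 Ch Pay i r then ∑ d ∈ Ico 0 n, (if FD (dvw o q) i d then
          Real.exp (W (dvw o r) μ d - W (dvw o q) μ d) else 0) else 0))) q ≤
        ∑ d ∈ Ico 0 n, if FD (dvw o q) i d then s₁ q * (Real.exp (-W (dvw o q) μ d) *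
          Y q d * cE π i (g i d) q) else 0 := by
      intro i _
      have e1 : cE π i (fun r => s₁ q * (σ₂ r ^ 3 * (K i q r *
          if Ty3 Ch Pay i r then ∑ d ∈ Ico 0 n, (if FD (dvw o q) i d then
            Real.exp (W (dvw o r) μ d - W (dvw o q) μ d) else 0) else 0))) q =
          ∑ d ∈ Ico 0 n, cE π i (fun r => s₁ q * (σ₂ r ^ 3 * (K i q r *
          if Ty3 Ch Pay i r then (if FD (dvw o q) i d then
            Real.exp (W (dvw o r) μ d - W (dvw o q) μ d) else 0) else 0))) q := by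
        unfold cE
        rw [sum_comm]
        refine sum_congr rfl fun z _ => ?_
        by_cases ht : Ty3 Ch Pay i (mix i z q)
        · simp only [if_pos ht]
          simp only [mul_sum]
        · simp only [if_neg ht, mul_zero, sum_const_zero]
      rw [e1]
      refine sum_le_sum fun d _ => ?_
      by_cases hfd : FD (dvw o q) i d
      · simp only [if_pos hfd]
        unfold cE
        rw [mul_sum, mul_sum]
        refine sum_le_sum fun z _ => ?_
        have h6 := Pr_nonneg hπ z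
        by_cases ht : Ty3 Ch Pay i (mix i z q)
        · simp only [if_pos ht]
          have hfd' : FD (dvw o (mix i z q)) i d := by
            refine ⟨hfd.1, (dvw_mix_ge hfd.1 z q).2 hfd.2.1, fun k k1 k2 => ?_⟩
            rw [dvw_mix_ge k1]
            exact hfd.2.2 k k1 k2
          have eg : g i d (mix i z q) = Real.exp (W (dvw o (mix i z q)) μ d) *
              σ₂ (mix i z q) ^ 3 := by
            rw [hg]
            simp only
            rw [if_pos ⟨ht, hfd'⟩]
          rw [eg]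
          have hk : K i q (mix i z q) ≤ Y q d := by
            by_cases h0 : K i q (mix i z q) = 0
            · rw [h0]
              exact hY0 q d
            · exact hKY i q z d ht h0 hfd
          have e2 : Real.exp (W (dvw o (mix i z q)) μ d - W (dvw o q) μ d) =
              Real.exp (W (dvw o (mix i z q)) μ d) * Real.exp (-W (dvw o q) μ d) := by
            rw [← Real.exp_add]
            ring_nf
          rw [e2]
          have h7 : 0 ≤ Pr π z * (s₁ q * (σ₂ (mix i z q) ^ 3 * (Real.exp (W (dvw o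
              (mix i z q)) μ d) * Real.exp (-W (dvw o q) μ d)))) := by
            have := hs₁ q
            have := hσ₂ (mix i z q)
            positivity
          have h8 := mul_le_mul_of_nonneg_left hk h7
          linarith
        · simp only [if_neg ht, mul_zero]
          have h8 := g0 i d (mix i z q)
          have h9 := hY0 q d
          have := hs₁ q
          positivity
      · simp only [if_neg hfd]
        unfold cE
        refine (sum_eq_zero fun z _ => ?_).le
        simp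
    refine (sum_le_sum a1).trans ?_
    rw [sum_comm]
    -- step 2: one deviation
    have a2 : ∀ d ∈ Ico 0 n, ∑ i ∈ range (n + 1), (if FD (dvw o q) i d then
        s₁ q * (Real.exp (-W (dvw o q) μ d) * Y q d *
          cE π i (g i d) q) else 0) ≤
        (if dvw o q d then Real.exp (-W (dvw o q) μ d) * Y q d
          else 0) * (2 * (s₁ q * Dm π σ₂ q)) := by
      intro d hd
      have hdn : d < n := (mem_Ico.1 hd).2
      by_cases hdv : dvw o q d
      · rw [if_pos hdv]
        have h9 := hY0 q d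
        have b1 : ∀ i ∈ range (n + 1), (if FD (dvw o q) i d then
            s₁ q * (Real.exp (-W (dvw o q) μ d) * Y q d *
            cE π i (g i d) q) else 0) ≤ s₁ q * (Real.exp (-W (dvw o q) μ d) *
            Y q d) * (2 * cE π d (g i d) q) := by
          intro i _
          have h10 : 0 ≤ s₁ q * (Real.exp (-W (dvw o q) μ d) *
            Y q d) := by
            have := hs₁ q
            positivity
          have h11 : 0 ≤ cE π d (g i d) q := cE_nonneg hπ (g0 i d) q
          by_cases hfd : FD (dvw o q) i d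
          · rw [if_pos hfd]
            have h12 : cE π i (g i d) q ≤ 2 * cE π d (g i d) q := by
              rcases le_or_gt (ms μ i d) 3 with hms | hms
              · have h13 := H.triv_half hms
                have h14 := cE_le_of_triv (o := o) hπ H.π_one hfd.1 hdn.le (g0 i d) hfd.2.2
                have h15 := mul_le_mul_of_nonneg_right h13 (cE_nonneg hπ (s := i) (g0 i d) q)
                linarith
              · -- no term
                have h13 : cE π i (g i d) q = 0 := by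
                  unfold cE
                  refine sum_eq_zero fun z _ => ?_
                  have h14 : g i d (mix i z q) = 0 := by
                    rw [hg]
                    simp only
                    rw [if_neg]
                    rintro ⟨⟨k1, k2, t, k3, k4⟩, k5⟩
                    have hr := H.pos (mix i z q)
                    have h15 : d ≤ nx (Ch (mix i z q)) n i := by
                      rcases nx_mem_or (Ch := Ch (mix i z q)) (n := n) i with h | h
                      · rw [h]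
                        exact hdn.le
                      · have hi' : i < nx (Ch (mix i z q)) n i :=
                          lt_nx (lt_of_le_of_lt hfd.1 hdn)
                        obtain ⟨k, k6, k7, k8⟩ := hr.sep i k1 _ h hi'
                        by_contra hcon
                        exact k5.2.2 k k6 (by omega) k8
                    have h16 := hr.np i k1 k2 d hfd.1 h15
                    rw [nd_eq_zero k5.2.2] at h16
                    linarith
                  rw [h14, mul_zero]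
                rw [h13]
                linarith
            calc s₁ q * (Real.exp (-W (dvw o q) μ d) * Y q d *
                  cE π i (g i d) q) = s₁ q * (Real.exp (-W (dvw o q) μ d) *
                  Y q d) * cE π i (g i d) q := by ring
              _ ≤ _ := mul_le_mul_of_nonneg_left h12 h10
          · rw [if_neg hfd]
            positivity
        refine (sum_le_sum b1).trans ?_
        rw [← mul_sum, ← mul_sum]
        have b2 : ∑ i ∈ range (n + 1), cE π d (g i d) q ≤ Dm π σ₂ q := by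
          refine le_trans ?_ (cE_exp_W_le hπ H.π_one H.μ_nonneg H.μ_le H.ε_small H.dev hdn.le
            hσ₂ q)
          unfold cE
          rw [sum_comm]
          refine sum_le_sum fun z _ => ?_
          rw [← mul_sum]
          refine mul_le_mul_of_nonneg_left ?_ (Pr_nonneg hπ z)
          set r := mix d z q
          have h12 : ∑ i ∈ range (n + 1), g i d r =
              ∑ i ∈ (range (n + 1)).filter (fun i => Ty3 Ch Pay i r ∧ FD (dvw o r) i d),
                Real.exp (W (dvw o r) μ d) * σ₂ r ^ 3 := by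
            rw [hg]
            simp only
            rw [← sum_filter]
          rw [h12, sum_const, nsmul_eq_mul]
          have h13 : ((range (n + 1)).filter (fun i => Ty3 Ch Pay i r ∧
              FD (dvw o r) i d)).card ≤ 1 := by
            rw [card_le_one]
            intro a ha b hb
            rw [mem_filter] at ha hb
            by_contra hne
            rcases lt_or_gt_of_ne hne with h | h
            · obtain ⟨k, k1, k2, k3⟩ := (H.pos r).sep a ha.2.1.1 b hb.2.1.1 h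
              exact ha.2.2.2.2 k k1 (lt_of_lt_of_le k2 hb.2.2.1) k3
            · obtain ⟨k, k1, k2, k3⟩ := (H.pos r).sep b hb.2.1.1 a ha.2.1.1 h
              exact hb.2.2.2.2 k k1 (lt_of_lt_of_le k2 ha.2.2.1) k3
          have h14 : (((range (n + 1)).filter (fun i => Ty3 Ch Pay i r ∧
              FD (dvw o r) i d)).card : ℝ) ≤ 1 := by exact_mod_cast h13
          have h15 : 0 ≤ Real.exp (W (dvw o r) μ d) * σ₂ r ^ 3 := by
            have := hσ₂ r
            positivity
          nlinarith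
        have h10 : 0 ≤ s₁ q * (Real.exp (-W (dvw o q) μ d) *
            Y q d) := by
          have := hs₁ q
          positivity
        have b3 := mul_le_mul_of_nonneg_left (mul_le_mul_of_nonneg_left b2 zero_le_two) h10
        linarith
      · rw [if_neg hdv, zero_mul]
        refine (sum_eq_zero fun i _ => ?_).le
        rw [if_neg fun h => hdv h.2.1]
    refine (sum_le_sum a2).trans ?_
    rw [← sum_mul, ← sum_filter]
    have h2 := hR q
    have h3 : 0 ≤ 2 * (s₁ q * Dm π σ₂ q) := by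
      have := hs₁ q
      have := Dm_nonneg (π := π) σ₂ q
      positivity
    have h4 := mul_le_mul_of_nonneg_right h2 h3
    refine h4.trans (le_of_eq ?_)
    ring
  -- average
  have e1 : ∑ i ∈ range (n + 1), Ex π (fun q => cE π i (fun r => s₁ q * (σ₂ r ^ 3 * (K i q r *
      if Ty3 Ch Pay i r then ∑ d ∈ Ico 0 n, (if FD (dvw o q) i d then
        Real.exp (W (dvw o r) μ d - W (dvw o q) μ d) else 0) else 0))) q) =
      Ex π (fun q => ∑ i ∈ range (n + 1), cE π i (fun r => s₁ q * (σ₂ r ^ 3 * (K i q r *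
      if Ty3 Ch Pay i r then ∑ d ∈ Ico 0 n, (if FD (dvw o q) i d then
        Real.exp (W (dvw o r) μ d - W (dvw o q) μ d) else 0) else 0))) q) := by
    unfold Ex
    rw [sum_comm]
    refine sum_congr rfl fun r _ => ?_
    rw [mul_sum]
  rw [e1, ← Ex_mul]
  exact Ex_mono hπ key

open Classical in
/-- the decomposition of the kernel of a pair -/
theorem ker_split (H : Sys π o μ c κ ε Ch Pay) (HK : Ker0 κ Ch Pay K) (i : ℕ)
    (q z : Fin n → L) :
    K i q (mix i z q) ≤ K i q (mix i z q) * (if Ty1 Ch Pay i (mix i z q) then 1 else 0) +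
      K i q (mix i z q) * (if Ty3 Ch Pay i (mix i z q) then
        21 * Real.exp (W (dvw o q) μ i - W (dvw o (mix i z q)) μ i) else 0) +
      K i q (mix i z q) * (if Ty3 Ch Pay i (mix i z q) then
        ∑ d ∈ Ico 0 n, (if FD (dvw o q) i d then
          Real.exp (W (dvw o (mix i z q)) μ d - W (dvw o q) μ d) else 0) else 0) := by
  set r := mix i z q with hr
  have hK := HK.nonneg i q r
  have hA : 0 ≤ (if Ty3 Ch Pay i r then 21 * Real.exp (W (dvw o q) μ i - W (dvw o r) μ i)
      else 0) := by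
    split_ifs <;> positivity
  have hB : 0 ≤ (if Ty3 Ch Pay i r then ∑ d ∈ Ico 0 n, (if FD (dvw o q) i d then
          Real.exp (W (dvw o r) μ d - W (dvw o q) μ d) else 0) else 0) := by
    split_ifs
    · refine sum_nonneg fun d _ => ?_
      split_ifs <;> positivity
    · exact le_rfl
  rcases hK.eq_or_lt with h0 | h0
  · rw [← h0]
    simp
  have hnew : i ∈ Ch r := HK.new i q z h0.ne'
  by_cases h1 : Ty1 Ch Pay i r
  · rw [if_pos h1, mul_one]
    have := mul_nonneg hK hA
    have := mul_nonneg hK hB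
    linarith
  · have h3 : Ty3 Ch Pay i r := by
      unfold Ty1 at h1
      push Not at h1
      obtain ⟨h4, t, h5, h6⟩ := h1 hnew
      exact ⟨hnew, h4, t, h5, h6⟩
    rw [if_neg h1, if_pos h3, if_pos h3, mul_zero, zero_add, ← mul_add]
    refine le_mul_of_one_le_right hK ?_
    obtain ⟨-, hp, t, ht, hit⟩ := h3
    have hPr := H.pos r
    obtain ⟨k, k1, k2, k3⟩ := hPr.sep i hnew t ht hit
    obtain ⟨d, hd, hdk⟩ := exists_FD (dv := dvw o q) k1 ((dvw_mix_ge k1 z q).1 k3)
    have hdn : d < n := by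
      have := hPr.le t ht
      omega
    have hnd : ∀ x, i ≤ x → x < d → ¬ dvw o r x := fun x x1 x2 => by
      rw [hr, dvw_mix_ge x1]
      exact hd.2.2 x x1 x2
    have hdnx : d ≤ nx (Ch r) n i := by
      rcases nx_mem_or (Ch := Ch r) (n := n) i with h | h
      · rw [h]
        exact hdn.le
      · have hi' : i < nx (Ch r) n i := lt_nx (lt_of_le_of_lt hd.1 hdn)
        obtain ⟨k', k6, k7, k8⟩ := hPr.sep i hnew _ h hi'
        by_contra hcon
        exact hnd k' k6 (by omega) k8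
    have a1 := W_le_of_noDev (dv := dvw o q) H.μ_nonneg hd.1 hd.2.2
    have a2 := hPr.low H.μ_nonneg hnew hp d hd.1 hdnx
    have a3 : Real.exp (W (dvw o q) μ d - W (dvw o r) μ d) ≤
        21 * Real.exp (W (dvw o q) μ i - W (dvw o r) μ i) := by
      calc Real.exp (W (dvw o q) μ d - W (dvw o r) μ d) ≤
            Real.exp (3 + (W (dvw o q) μ i - W (dvw o r) μ i)) := by
            refine Real.exp_le_exp.2 ?_
            linarith
        _ = Real.exp 3 * Real.exp (W (dvw o q) μ i - W (dvw o r) μ i) := Real.exp_add _ _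
        _ ≤ _ := mul_le_mul_of_nonneg_right exp_three (Real.exp_pos _).le
    have a4 : Real.exp (W (dvw o r) μ d - W (dvw o q) μ d) ≤
        ∑ d ∈ Ico 0 n, (if FD (dvw o q) i d then
          Real.exp (W (dvw o r) μ d - W (dvw o q) μ d) else 0) := by
      have := single_le_sum (s := Ico 0 n) (f := fun d => if FD (dvw o q) i d then
          Real.exp (W (dvw o r) μ d - W (dvw o q) μ d) else 0)
        (fun d _ => by split_ifs <;> positivity) (mem_Ico.2 ⟨Nat.zero_le _, hdn⟩)
      simpa only [if_pos hd] using this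
    have a5 : 1 ≤ Real.exp (W (dvw o q) μ d - W (dvw o r) μ d) +
        Real.exp (W (dvw o r) μ d - W (dvw o q) μ d) := by
      rcases le_total (W (dvw o q) μ d) (W (dvw o r) μ d) with h | h
      · have := Real.one_le_exp (sub_nonneg.2 h)
        have := Real.exp_pos (W (dvw o q) μ d - W (dvw o r) μ d)
        linarith
      · have := Real.one_le_exp (sub_nonneg.2 h)
        have := Real.exp_pos (W (dvw o r) μ d - W (dvw o q) μ d)
        linarith
    linarith

theorem cube_root (x : ℝ) (hx : 0 ≤ x) : (x ^ (1 / 3 : ℝ)) ^ 3 = x := by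
  rw [← Real.rpow_natCast, ← Real.rpow_mul hx]
  norm_num

open Classical in
/-- THE PAIRS WITH THE SAME FUTURE, second member new, general form -/
theorem half_energyG (H : Sys π o μ c κ ε Ch Pay) (HK : Ker0 κ Ch Pay K)
    (hs₁ : ∀ ω, 0 ≤ s₁ ω) (hs₂ : ∀ ω, 0 ≤ s₂ ω) {Y : (Fin n → L) → ℕ → ℝ}
    (hY0 : ∀ q d, 0 ≤ Y q d)
    (hKY : ∀ i q z d, Ty3 Ch Pay i (mix i z q) → K i q (mix i z q) ≠ 0 → FD (dvw o q) i d →
      K i q (mix i z q) ≤ Y q d) {R : ℝ} (hR0 : 0 ≤ R)
    (hR : ∀ q, ∑ d ∈ (Ico 0 n).filter (dvw o q),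
      Real.exp (-W (dvw o q) μ d) * Y q d ≤ R) :
    ∑ i ∈ range (n + 1), Ex π (fun q => cE π i (fun r => s₁ q * (s₂ r * K i q r)) q) ≤
      (430 / κ + 10 * R) * (Real.sqrt (Ex π (fun ω => s₁ ω ^ 2)) *
        Real.sqrt (Ex π (fun ω => s₂ ω ^ 2))) := by
  have hκ0 := H.κ_pos
  have hκ1 := H.κ_le
  have hπ := H.π_nonneg
  set σ₁ : (Fin n → L) → ℝ := fun ω => s₁ ω ^ (1 / 3 : ℝ) with hσ₁
  set σ₂ : (Fin n → L) → ℝ := fun ω => s₂ ω ^ (1 / 3 : ℝ) with hσ₂
  have e1 : ∀ ω, σ₁ ω ^ 3 = s₁ ω := fun ω => cube_root _ (hs₁ ω)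
  have e2 : ∀ ω, σ₂ ω ^ 3 = s₂ ω := fun ω => cube_root _ (hs₂ ω)
  have p1 : ∀ ω, 0 ≤ σ₁ ω := fun ω => Real.rpow_nonneg (hs₁ ω) _
  have p2 : ∀ ω, 0 ≤ σ₂ ω := fun ω => Real.rpow_nonneg (hs₂ ω) _
  have t1 := type1 (s₂ := s₂) H HK p1 hs₂
  have t2 := type3a (s₂ := s₂) H HK p1 hs₂
  have t3 := type3b (s₁ := s₁) H hs₁ p2 hY0 hKY hR
  simp only [e1] at t1 t2
  simp only [e2] at t3
  have q1 : Ex π (fun r => s₂ r * Dm π σ₁ r) ≤ 5 * (Real.sqrt (Ex π (fun ω => s₁ ω ^ 2)) *
        Real.sqrt (Ex π (fun ω => s₂ ω ^ 2))) := by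
    have := pair_Dm (s := s₂) (σ := σ₁) hπ H.π_one
    simp only [e1] at this
    linarith [mul_comm (Real.sqrt (Ex π (fun ω => s₁ ω ^ 2))) (Real.sqrt (Ex π (fun ω => s₂ ω ^ 2)))]
  have q2 : Ex π (fun r => s₁ r * Dm π σ₂ r) ≤ 5 * (Real.sqrt (Ex π (fun ω => s₁ ω ^ 2)) *
        Real.sqrt (Ex π (fun ω => s₂ ω ^ 2))) := by
    have := pair_Dm (s := s₁) (σ := σ₂) hπ H.π_one
    simp only [e2] at this
    exact this
  set S := Real.sqrt (Ex π (fun ω => s₁ ω ^ 2)) * Real.sqrt (Ex π (fun ω => s₂ ω ^ 2)) with hS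
  have hS0 : 0 ≤ S := by positivity
  -- the sum of the three parts
  have key : ∑ i ∈ range (n + 1), Ex π (fun q => cE π i (fun r => s₁ q * (s₂ r * K i q r)) q) ≤
      ∑ i ∈ range (n + 1), Ex π (fun r => cE π i (fun q => s₁ q * (s₂ r * (K i q r *
        if Ty1 Ch Pay i r then 1 else 0))) r) +
      ∑ i ∈ range (n + 1), Ex π (fun r => cE π i (fun q => s₁ q * (s₂ r * (K i q r *
        if Ty3 Ch Pay i r then 21 * Real.exp (W (dvw o q) μ i - W (dvw o r) μ i) else 0))) r) +
      ∑ i ∈ range (n + 1), Ex π (fun q => cE π i (fun r => s₁ q * (s₂ r * (K i q r *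
        if Ty3 Ch Pay i r then ∑ d ∈ Ico 0 n, (if FD (dvw o q) i d then
          Real.exp (W (dvw o r) μ d - W (dvw o q) μ d) else 0) else 0))) q) := by
    rw [← sum_add_distrib, ← sum_add_distrib]
    refine sum_le_sum fun i _ => ?_
    rw [← pair_swap π i (fun q r => s₁ q * (s₂ r * (K i q r *
        if Ty1 Ch Pay i r then 1 else 0))), ← pair_swap π i (fun q r => s₁ q * (s₂ r * (K i q r *
        if Ty3 Ch Pay i r then 21 * Real.exp (W (dvw o q) μ i - W (dvw o r) μ i) else 0))),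
      ← Ex_add, ← Ex_add]
    refine Ex_mono hπ fun q => ?_
    unfold cE
    rw [← sum_add_distrib, ← sum_add_distrib]
    refine sum_le_sum fun z _ => ?_
    have h1 := ker_split H HK i q z
    have h2 : 0 ≤ Pr π z * (s₁ q * s₂ (mix i z q)) :=
      mul_nonneg (Pr_nonneg hπ z) (mul_nonneg (hs₁ _) (hs₂ _))
    have h3 := mul_le_mul_of_nonneg_left h1 h2
    beta_reduce
    linarith
  refine key.trans ?_
  have g1 : (1 / κ + 1) * Ex π (fun r => s₂ r * Dm π σ₁ r) ≤ 2 / κ * (5 * S) := by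
    refine mul_le_mul ?_ q1 (Ex_nonneg hπ fun ω => mul_nonneg (hs₂ _) (Dm_nonneg _ _))
      (by positivity)
    have h2 : 1 ≤ 1 / κ := by
      rw [le_div_iff₀ hκ0]
      linarith
    have h3 : 2 / κ = 1 / κ + 1 / κ := by ring
    linarith
  have g2 : 84 / κ * Ex π (fun r => s₂ r * Dm π σ₁ r) ≤ 84 / κ * (5 * S) :=
    mul_le_mul_of_nonneg_left q1 (by positivity)
  have g3 : 2 * R * Ex π (fun q => s₁ q * Dm π σ₂ q) ≤ 2 * R * (5 * S) :=
    mul_le_mul_of_nonneg_left q2 (by positivity)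
  have g4 : (430 / κ + 10 * R) * S = 2 / κ * (5 * S) + 84 / κ * (5 * S) + 2 * R * (5 * S) := by
    ring
  linarith

/-- THE PAIRS WITH THE SAME FUTURE, second member new -/
theorem half_energy (H : Sys π o μ c κ ε Ch Pay) (HK : Ker o μ c κ Ch Pay K)
    (hs₁ : ∀ ω, 0 ≤ s₁ ω) (hs₂ : ∀ ω, 0 ≤ s₂ ω) :
    ∑ i ∈ range (n + 1), Ex π (fun q => cE π i (fun r => s₁ q * (s₂ r * K i q r)) q) ≤
      12500 / (c * κ) * (Real.sqrt (Ex π (fun ω => s₁ ω ^ 2)) *
        Real.sqrt (Ex π (fun ω => s₂ ω ^ 2))) := by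
  classical
  have hκ0 := H.κ_pos
  have hκ1 := H.κ_le
  have hc0 := H.c_pos
  have hc1 := H.c_le
  have hck : 0 < c * κ := by positivity
  have h := half_energyG (Y := fun q d => YY (dvw o q) μ c κ n (Pay q) (Ch q) d) H HK.toKer0 hs₁ hs₂
    (fun q d => YY_nonneg hκ0.le hκ1 H.hc d)
    (fun i q z d ht _ hfd => kernel_le H.μ_nonneg hκ0.le hκ1 H.hc (H.pos q) (H.pos (mix i z q))
      (fun k hk => dvw_mix_ge hk z q) ht.1 ht.2.1 ht.2.2 hfd.1 hfd.2.1 hfd.2.2
      (HK.own₁ i q z) (HK.gap i q z ht.1)) (R := 1205 / (c * κ)) (by positivity)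
    (fun q => row_old H.μ_nonneg H.μ_le_one hc0 hc1 hκ0 hκ1 (H.pos q))
  refine h.trans (mul_le_mul_of_nonneg_right ?_ (by positivity))
  have h1 : 430 / κ ≤ 430 / (c * κ) :=
    div_le_div_of_nonneg_left (by norm_num) hck (by nlinarith)
  have h2 : 12500 / (c * κ) = 430 / (c * κ) + 10 * (1205 / (c * κ)) + 20 / (c * κ) := by ring
  have h3 : 0 ≤ 20 / (c * κ) := by positivity
  linarith

/-- THE PAIRS WITH THE SAME FUTURE, one of the two members new -/
theorem energy (H : Sys π o μ c κ ε Ch Pay) (hK : ∀ i q r, 0 ≤ K i q r)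
    (hnew : ∀ i q z, K i q (mix i z q) ≠ 0 → i ∈ Ch q ∨ i ∈ Ch (mix i z q))
    (hown₁ : ∀ i q z, K i q (mix i z q) ≤ Vt κ (Pay q) (Ch q) i)
    (hown₂ : ∀ i q z, K i q (mix i z q) ≤ Vt κ (Pay (mix i z q)) (Ch (mix i z q)) i)
    (hgap₁ : ∀ i q z, i ∈ Ch (mix i z q) → nx (Ch (mix i z q)) n i < nx (Ch q) n i →
      K i q (mix i z q) ≤ UU (dvw o q) μ c (nx (Ch (mix i z q)) n i) (nx (Ch q) n i) *
        Vt κ (Pay q) (Ch q) (nx (Ch q) n i))
    (hgap₂ : ∀ i q z, i ∈ Ch q → nx (Ch q) n i < nx (Ch (mix i z q)) n i →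
      K i q (mix i z q) ≤ UU (dvw o (mix i z q)) μ c (nx (Ch q) n i) (nx (Ch (mix i z q)) n i) *
        Vt κ (Pay (mix i z q)) (Ch (mix i z q)) (nx (Ch (mix i z q)) n i))
    (hs₁ : ∀ ω, 0 ≤ s₁ ω) (hs₂ : ∀ ω, 0 ≤ s₂ ω) :
    ∑ i ∈ range (n + 1), Ex π (fun q => cE π i (fun r => s₁ q * (s₂ r * K i q r)) q) ≤
      25000 / (c * κ) * (Real.sqrt (Ex π (fun ω => s₁ ω ^ 2)) *
        Real.sqrt (Ex π (fun ω => s₂ ω ^ 2))) := by
  classical
  have hπ := H.π_nonneg
  set K₁ : ℕ → (Fin n → L) → (Fin n → L) → ℝ := fun i q r => if i ∈ Ch r then K i q r else 0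
    with hK₁
  set K₂ : ℕ → (Fin n → L) → (Fin n → L) → ℝ := fun i q r => if i ∈ Ch r then K i r q else 0
    with hK₂
  have le₁ : ∀ i q r, K₁ i q r ≤ K i q r := by
    intro i q r
    rw [hK₁]
    simp only
    split_ifs
    · exact le_rfl
    · exact hK _ _ _
  have le₂ : ∀ i q r, K₂ i q r ≤ K i r q := by
    intro i q r
    rw [hK₂]
    simp only
    split_ifs
    · exact le_rfl
    · exact hK _ _ _
  have H₁ : Ker o μ c κ Ch Pay K₁ :=
    { nonneg := fun i q r => by
        rw [hK₁]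
        simp only
        split_ifs
        · exact hK _ _ _
        · exact le_rfl
      new := fun i q z h => by
        rw [hK₁] at h
        simp only at h
        by_contra hcon
        rw [if_neg hcon] at h
        exact h rfl
      own₁ := fun i q z => (le₁ _ _ _).trans (hown₁ i q z)
      own₂ := fun i q z => (le₁ _ _ _).trans (hown₂ i q z)
      gap := fun i q z h1 h2 => (le₁ _ _ _).trans (hgap₁ i q z h1 h2) }
  have eq : ∀ (i : ℕ) (q z : Fin n → L), mix i q (mix i z q) = q := fun i q z => by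
    rw [mix_mix, mix_self]
  have H₂ : Ker o μ c κ Ch Pay K₂ :=
    { nonneg := fun i q r => by
        rw [hK₂]
        simp only
        split_ifs
        · exact hK _ _ _
        · exact le_rfl
      new := fun i q z h => by
        rw [hK₂] at h
        simp only at h
        by_contra hcon
        rw [if_neg hcon] at h
        exact h rfl
      own₁ := fun i q z => by
        have := hown₂ i (mix i z q) q
        rw [eq] at this
        exact (le₂ _ _ _).trans this
      own₂ := fun i q z => by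
        have := hown₁ i (mix i z q) q
        rw [eq] at this
        exact (le₂ _ _ _).trans this
      gap := fun i q z h1 h2 => by
        have := hgap₂ i (mix i z q) q
        rw [eq] at this
        exact (le₂ _ _ _).trans (this h1 h2) }
  have h₁ := half_energy H H₁ hs₁ hs₂
  have h₂ := half_energy H H₂ hs₂ hs₁
  have key : ∑ i ∈ range (n + 1), Ex π (fun q => cE π i (fun r => s₁ q * (s₂ r * K i q r)) q) ≤
      ∑ i ∈ range (n + 1), Ex π (fun q => cE π i (fun r => s₁ q * (s₂ r * K₁ i q r)) q) +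
      ∑ i ∈ range (n + 1), Ex π (fun q => cE π i (fun r => s₂ q * (s₁ r * K₂ i q r)) q) := by
    rw [← sum_add_distrib]
    refine sum_le_sum fun i _ => ?_
    rw [pair_swap π i (fun q r => s₂ q * (s₁ r * K₂ i q r)), ← Ex_add]
    refine Ex_mono hπ fun q => ?_
    unfold cE
    rw [← sum_add_distrib]
    refine sum_le_sum fun z _ => ?_
    beta_reduce
    have h2 : 0 ≤ Pr π z * (s₁ q * s₂ (mix i z q)) :=
      mul_nonneg (Pr_nonneg hπ z) (mul_nonneg (hs₁ _) (hs₂ _))
    have h3 : K i q (mix i z q) ≤ K₁ i q (mix i z q) + K₂ i (mix i z q) q := by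
      have n1 := H₁.nonneg i q (mix i z q)
      have n2 := H₂.nonneg i (mix i z q) q
      rcases (hK i q (mix i z q)).eq_or_lt with h0 | h0
      · rw [← h0]
        linarith
      · rcases hnew i q z h0.ne' with h | h
        · have : K₂ i (mix i z q) q = K i q (mix i z q) := by
            rw [hK₂]
            simp only
            rw [if_pos h]
          linarith
        · have : K₁ i q (mix i z q) = K i q (mix i z q) := by
            rw [hK₁]
            simp only
            rw [if_pos h]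
          linarith
    have h4 := mul_le_mul_of_nonneg_left h3 h2
    linarith
  have e : 25000 / (c * κ) * (Real.sqrt (Ex π (fun ω => s₁ ω ^ 2)) *
        Real.sqrt (Ex π (fun ω => s₂ ω ^ 2))) =
      12500 / (c * κ) * (Real.sqrt (Ex π (fun ω => s₁ ω ^ 2)) *
        Real.sqrt (Ex π (fun ω => s₂ ω ^ 2))) +
      12500 / (c * κ) * (Real.sqrt (Ex π (fun ω => s₂ ω ^ 2)) *
        Real.sqrt (Ex π (fun ω => s₁ ω ^ 2))) := by ring
  rw [e]
  linarith

end Main

end Vale.P028.RK
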