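import Vale.Agent.P028.H132.ChainG
import Vale.Agent.P028.H132.SameFut

/-!
# The energy of the pairs with the same future, (H)-form

No payment of the pairs which are not aligned: only the later phases of the two members pay.
-/

namespace Vale.P028.RK

open Finset Vale.P028.RN

section Word

variable {κ : ℝ} {Pay : ℕ → Prop} {Ch : Finset ℕ} {dv : ℕ → Prop} {μ : ℕ → ℝ} {c : ℝ} {n : ℕ}

/-! ### The old row in (H)-form -/

/-- `d` is the first deviation after a starting place and it is alive at all the later starting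
places of its phase -/
def GG (dv : ℕ → Prop) (μ : ℕ → ℝ) (n : ℕ) (Ch : Finset ℕ) (I : ℕ → Prop) (d : ℕ) : Prop :=
  (∃ i, I i ∧ FD dv i d) ∧ ∀ i', I i' → d < i' → i' < nx Ch n d → Alive dv μ d i'

open Classical in
/-- the weight of the deviation `d` -/
noncomputable def YH (dv : ℕ → Prop) (μ : ℕ → ℝ) (κ : ℝ) (n : ℕ) (Pay : ℕ → Prop)
    (Ch : Finset ℕ) (I : ℕ → Prop) (d : ℕ) : ℝ :=
  (if GG dv μ n Ch I d then 1 else 0) * Vp κ Pay Ch d + EE dv κ Pay Ch d

theorem YH_nonneg (hκ0 : 0 ≤ κ) (hκ1 : κ ≤ 1) {I : ℕ → Prop} (d : ℕ) :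
    0 ≤ YH dv μ κ n Pay Ch I d := by
  unfold YH
  refine add_nonneg (mul_nonneg ?_ (Vp_bounds hκ0 hκ1 d).1) (EE_nonneg hκ0 hκ1 d)
  split_ifs <;> norm_num

theorem PB_H (hμ : ∀ k, 0 ≤ μ k) {I : ℕ → Prop} {lo e : ℕ} (he : e ≤ n)
    (hs : ∀ s ∈ Ch, lo < s → e ≤ s) :
    PB dv μ (fun d _ => open Classical in if GG dv μ n Ch I d then 1 else 0) 3 lo e := by
  classical
  intro w hw
  -- the set of the relevant deviations
  have e1 : ∑ d ∈ (Ico lo e).filter dv, Real.exp (-W dv μ d) *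
      (if GG dv μ n Ch I d then 1 else 0) =
      ∑ d ∈ (Ico lo e).filter (fun d => dv d ∧ GG dv μ n Ch I d), Real.exp (-W dv μ d) := by
    rw [← filter_filter, sum_filter (p := GG dv μ n Ch I)]
    refine sum_congr rfl fun d _ => ?_
    split_ifs <;> simp
  rw [e1]
  set A := (Ico lo e).filter (fun d => dv d ∧ GG dv μ n Ch I d) with hA
  rcases A.eq_empty_or_nonempty with h0 | h0
  · rw [h0, sum_empty]
    positivity
  set m := A.max' h0 with hm
  have hmA : m ∈ A := max'_mem _ _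
  obtain ⟨hm1, hm2, ⟨im, him, hfm⟩, hm4⟩ := mem_filter.1 hmA
  rw [mem_Ico] at hm1
  rw [← add_sum_erase A _ hmA]
  have h1 : Real.exp (-W dv μ m) ≤ Real.exp (-w) :=
    Real.exp_le_exp.2 (neg_le_neg (hw m hm1.1 hm1.2.le))
  have h2 : ∑ d ∈ A.erase m, Real.exp (-W dv μ d) ≤ 2 * Real.exp (-w) := by
    refine geo _ _ _ (fun d hd => ?_) fun d hd d' hd' hlt => ?_
    · have h3 := (mem_filter.1 (mem_of_mem_erase hd)).1
      rw [mem_Ico] at h3
      exact hw d h3.1 h3.2.le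
    · obtain ⟨a1, a2, -, a4⟩ := mem_filter.1 (mem_of_mem_erase hd)
      obtain ⟨b1, b2, -, -⟩ := mem_filter.1 (mem_of_mem_erase hd')
      rw [mem_Ico] at a1 b1
      -- `d' < im`
      have hd'm : d' < m := lt_of_le_of_ne (le_max' _ _ (mem_of_mem_erase hd'))
        (ne_of_mem_erase hd')
      have hd'i : d' < im := by
        by_contra hcon
        exact hfm.2.2 d' (by omega) hd'm b2
      have hie : im < e := lt_of_le_of_lt hfm.1 hm1.2
      have hdnx : im < nx Ch n d := by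
        rcases nx_mem_or (Ch := Ch) (n := n) d with h | h
        · rw [h]
          omega
        · have h5 : d < nx Ch n d := lt_nx (by omega)
          have := hs _ h (by omega)
          omega
      have h3 := a4 im him (by omega) hdnx d' hlt hd'i.le
      have h5 := W_lower (dv := dv) hμ hlt.le
      have h6 := one_le_nd (dv := dv) (le_refl d) hlt a2
      linarith
  linarith

open Classical in
/-- (P3H) the old row in (H)-form -/
theorem row_oldH (hμ : ∀ k, 0 ≤ μ k) (hκ0 : 0 < κ) (hκ1 : κ ≤ 1) (H : Pos dv μ n Ch Pay)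
    (I : ℕ → Prop) :
    ∑ d ∈ (Ico 0 n).filter dv, Real.exp (-W dv μ d) * YH dv μ κ n Pay Ch I d ≤ 259 / κ := by
  have h1 := TG_le (dv := dv) (X := fun d _ => if GG dv μ n Ch I d then 1 else 0) (q0 := 3) hμ
    (by norm_num) hκ0 hκ1 H (fun j _ e _ he hs => PB_H hμ he hs)
    (fun e he hs => PB_H hμ he fun s hs' _ => hs s hs')
  have h2 := row_EE (dv := dv) (Pay := Pay) hκ0 hκ1 Ch n
  have h3 : ∑ d ∈ (Ico 0 n).filter dv, Real.exp (-W dv μ d) * EE dv κ Pay Ch d ≤
      ∑ d ∈ (Ico 0 n).filter dv, EE dv κ Pay Ch d := by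
    refine sum_le_sum fun d _ => ?_
    have h4 := EE_nonneg (dv := dv) (Pay := Pay) (Ch := Ch) hκ0.le hκ1 d
    have h5 : Real.exp (-W dv μ d) ≤ 1 := by
      rw [Real.exp_le_one_iff]
      linarith [W_nonneg (dv := dv) (μ := μ) d]
    nlinarith
  have h4 : ∑ d ∈ (Ico 0 n).filter dv, Real.exp (-W dv μ d) * YH dv μ κ n Pay Ch I d =
      TG dv μ (fun d _ => if GG dv μ n Ch I d then 1 else 0) κ Pay n Ch 0 +
      ∑ d ∈ (Ico 0 n).filter dv, Real.exp (-W dv μ d) * EE dv κ Pay Ch d := by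
    unfold TG YH
    rw [← sum_add_distrib]
    exact sum_congr rfl fun d _ => mul_add _ _ _
  have h5 : 259 / κ = 86 * 3 / κ + 1 / κ := by
    rw [← add_div]
    norm_num
  linarith

/-- THE KERNEL OF A PAIR whose new member has a phase which does not pay, (H)-form -/
theorem kernel_leH (hμ : ∀ k, 0 ≤ μ k) (hκ0 : 0 ≤ κ) (hκ1 : κ ≤ 1) {dr : ℕ → Prop}
    {Chr : Finset ℕ} {Payr : ℕ → Prop} {I : ℕ → Prop}
    (H : Pos dv μ n Ch Pay) (Hr : Pos dr μ n Chr Payr) {i d : ℕ} (hdd : ∀ k, i ≤ k → (dr k ↔ dv k))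
    (hi : i ∈ Chr) (hp : ¬ Payr i) (hl : ∃ t ∈ Chr, i < t) (hI : I i) (hfd : FD dv i d) {K : ℝ}
    (h1 : K ≤ Vt κ Pay Ch i)
    (h2 : ∀ i', i < i' → I i' → i' < nx Ch n i → i' < nx Chr n i) :
    K ≤ YH dv μ κ n Pay Ch I d := by
  classical
  have hV : ∀ {x y : ℕ}, x ≤ y → Vt κ Pay Ch x ≤ Vt κ Pay Ch y := fun h => Vt_mono hκ0 hκ1 h
  obtain ⟨hid, hd, hnd⟩ := hfd
  -- the next position of `r`
  obtain ⟨t, ht, hit⟩ := hl
  have hi' : nx Chr n i ∈ Chr := by
    rcases nx_mem_or (Ch := Chr) (n := n) i with h | h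
    · have h3 := nx_le_of_mem (n := n) ht hit
      have h4 := Hr.le t ht
      rw [h] at h3
      have : t = n := by omega
      rw [h, ← this]
      exact ht
    · exact h
  have hin : i < n := lt_of_lt_of_le hit (Hr.le t ht)
  have hii' : i < nx Chr n i := lt_nx hin
  have hdi' : d < nx Chr n i := by
    obtain ⟨k, k1, k2, k3⟩ := Hr.sep i hi _ hi' hii'
    by_contra hcon
    exact hnd k k1 (by omega) ((hdd k k1).1 k3)
  have hdn : d < n := lt_of_lt_of_le hdi' (Hr.le _ hi')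
  have hal : ∀ x, x ≤ nx Chr n i → Alive dv μ d x := by
    intro x hx
    refine alive_of_np hμ hid hnd hd fun b hb1 hb2 => ?_
    have h3 := Hr.np i hi hp b hb1 (hb2.trans hx)
    have h4 : nd dr i b = nd dv i b := by
      unfold nd
      refine sum_congr rfl fun k hk => ?_
      rw [mem_Ico] at hk
      simp only [hdd k hk.1]
    rwa [h4] at h3
  have hE := EE_nonneg (dv := dv) (Pay := Pay) (Ch := Ch) hκ0 hκ1 d
  have hVp := (Vp_bounds (Pay := Pay) (Ch := Ch) hκ0 hκ1 d).1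
  unfold YH
  rcases lt_or_ge d (nx Ch n i) with hcase | hcase
  · -- `q` does not change between `i` and `d`
    have e1 : nx Ch n d = nx Ch n i := nx_eq_of_lt hid hcase
    have hG : GG dv μ n Ch I d := by
      refine ⟨⟨i, hI, hid, hd, hnd⟩, fun i' k1 k2 k3 => ?_⟩
      rw [e1] at k3
      exact hal i' (h2 i' (by omega) k1 k3).le
    rw [if_pos hG, one_mul, Vp_eq_Vt_nx hdn, e1]
    have := hV (x := i) (y := nx Ch n i) (by omega)
    linarith
  · -- `q` changes between `i` and `d`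
    set j0 := nx Ch n i with hj0
    have hj0m : j0 ∈ Ch := by
      rcases nx_mem_or (Ch := Ch) (n := n) i with h | h
      · omega
      · exact h
    have hij0 : i < j0 := lt_nx hin
    have hnd' : ∀ k, j0 ≤ k → k < d → ¬ dv k := fun k k1 k2 => hnd k (by omega) k2
    by_cases hpj : Pay j0
    · have h3 : Vt κ Pay Ch j0 ≤ EE dv κ Pay Ch d := by
        unfold EE
        exact single_le_sum (f := fun j => Vt κ Pay Ch j)
          (fun j _ => (Vt_bounds hκ0 hκ1 j).1) (mem_filter.2 ⟨hj0m, hpj, hcase, hnd'⟩)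
      have h4 : 0 ≤ (if GG dv μ n Ch I d then (1 : ℝ) else 0) * Vp κ Pay Ch d :=
        mul_nonneg (by split_ifs <;> norm_num) hVp
      have := hV hij0.le
      linarith
    · have hdj : d < nx Ch n j0 := by
        rcases nx_mem_or (Ch := Ch) (n := n) j0 with h | h
        · rw [h]
          exact hdn
        · obtain ⟨k, k1, k2, k3⟩ := H.sep j0 hj0m _ h (lt_nx (by omega))
          by_contra hcon
          exact hnd' k k1 (by omega) k3
      have e1 : nx Ch n d = nx Ch n j0 := nx_eq_of_lt hcase hdj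
      have hal' : Alive dv μ d (nx Ch n j0) :=
        alive_of_np hμ hcase hnd' hd fun b hb1 hb2 => H.np j0 hj0m hpj b hb1 hb2
      have hG : GG dv μ n Ch I d := by
        refine ⟨⟨i, hI, hid, hd, hnd⟩, fun i' _ _ k3 => ?_⟩
        rw [e1] at k3
        exact hal'.mono k3.le
      rw [if_pos hG, one_mul, Vp_eq_Vt_nx hdn, e1, ← Vp_eq_Vt_nx (b := j0) (by omega),
        ← Vt_eq_of_not hpj]
      have := hV hij0.le
      linarith

end Word

variable {n : ℕ} {L : Type*} [Fintype L] {π : Fin n → L → ℝ} {o : Fin n → L} {μ : ℕ → ℝ}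
  {c κ ε : ℝ} {Ch : (Fin n → L) → Finset ℕ} {Pay : (Fin n → L) → ℕ → Prop}
  {K : ℕ → (Fin n → L) → (Fin n → L) → ℝ} {s₁ s₂ : (Fin n → L) → ℝ}

/-- the kernel hypotheses for the pairs whose member `r` is new, (H)-form -/
structure KerH (κ : ℝ) (Ch : (Fin n → L) → Finset ℕ) (Pay : (Fin n → L) → ℕ → Prop)
    (K : ℕ → (Fin n → L) → (Fin n → L) → ℝ) : Prop extends Ker0 κ Ch Pay K where
  own₁ : ∀ i q z, K i q (mix i z q) ≤ Vt κ (Pay q) (Ch q) i
  h : ∀ i i' q z z', i < i' → K i q (mix i z q) ≠ 0 → K i' q (mix i' z' q) ≠ 0 →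
    i ∈ Ch (mix i z q) → i' ∈ Ch (mix i' z' q) → (∀ s ∈ Ch q, i < s → i' < s) →
    ∀ s ∈ Ch (mix i z q), i < s → i' < s

/-- THE PAIRS WITH THE SAME FUTURE, second member new, (H)-form -/
theorem half_energyH (H : Sys π o μ c κ ε Ch Pay) (HK : KerH κ Ch Pay K)
    (hs₁ : ∀ ω, 0 ≤ s₁ ω) (hs₂ : ∀ ω, 0 ≤ s₂ ω) :
    ∑ i ∈ range (n + 1), Ex π (fun q => cE π i (fun r => s₁ q * (s₂ r * K i q r)) q) ≤
      3050 / κ * (Real.sqrt (Ex π (fun ω => s₁ ω ^ 2)) *
        Real.sqrt (Ex π (fun ω => s₂ ω ^ 2))) := by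
  classical
  have hκ0 := H.κ_pos
  have hκ1 := H.κ_le
  set I : (Fin n → L) → ℕ → Prop := fun q i => ∃ z, K i q (mix i z q) ≠ 0 ∧ i ∈ Ch (mix i z q)
    with hI
  have h := half_energyG (Y := fun q d => YH (dvw o q) μ κ n (Pay q) (Ch q) (I q) d) H HK.toKer0
    hs₁ hs₂ (fun q d => YH_nonneg hκ0.le hκ1 d)
    (fun i q z d ht h0 hfd => kernel_leH H.μ_nonneg hκ0.le hκ1 (H.pos q) (H.pos (mix i z q))
      (fun k hk => dvw_mix_ge hk z q) ht.1 ht.2.1 ht.2.2 ⟨z, h0, ht.1⟩ hfd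
      (HK.own₁ i q z) (fun i' hii' hIi' hlt => by
        obtain ⟨z', k1, k2⟩ := hIi'
        have k3 := HK.h i i' q z z' hii' h0 k1 ht.1 k2 (fun s hs his =>
          lt_of_lt_of_le hlt (nx_le_of_mem hs his))
        rcases nx_mem_or (Ch := Ch (mix i z q)) (n := n) i with h | h
        · rw [h]
          exact lt_of_lt_of_le hlt (nx_le i)
        · have hin : i < n := lt_of_lt_of_le (lt_trans hii' hlt) (nx_le i)
          exact k3 _ h (lt_nx hin))) (R := 259 / κ) (by positivity)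
    (fun q => row_oldH H.μ_nonneg hκ0 hκ1 (H.pos q) (I q))
  refine h.trans (mul_le_mul_of_nonneg_right ?_ (by positivity))
  have h2 : 3050 / κ = 430 / κ + 10 * (259 / κ) + 30 / κ := by ring
  have h3 : 0 ≤ 30 / κ := by positivity
  linarith

/-- THE PAIRS WITH THE SAME FUTURE, (H)-form -/
theorem energyH (H : Sys π o μ c κ ε Ch Pay) (hK : ∀ i q r, 0 ≤ K i q r)
    (hnew : ∀ i q z, K i q (mix i z q) ≠ 0 → i ∈ Ch q ∨ i ∈ Ch (mix i z q))
    (hown₁ : ∀ i q z, K i q (mix i z q) ≤ Vt κ (Pay q) (Ch q) i)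
    (hown₂ : ∀ i q z, K i q (mix i z q) ≤ Vt κ (Pay (mix i z q)) (Ch (mix i z q)) i)
    (hH₁ : ∀ i i' q z z', i < i' → K i q (mix i z q) ≠ 0 → K i' q (mix i' z' q) ≠ 0 →
      i ∈ Ch (mix i z q) → i' ∈ Ch (mix i' z' q) → (∀ s ∈ Ch q, i < s → i' < s) →
      ∀ s ∈ Ch (mix i z q), i < s → i' < s)
    (hH₂ : ∀ i i' q z z', i < i' → K i (mix i z q) q ≠ 0 → K i' (mix i' z' q) q ≠ 0 →
      i ∈ Ch (mix i z q) → i' ∈ Ch (mix i' z' q) → (∀ s ∈ Ch q, i < s → i' < s) →
      ∀ s ∈ Ch (mix i z q), i < s → i' < s)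
    (hs₁ : ∀ ω, 0 ≤ s₁ ω) (hs₂ : ∀ ω, 0 ≤ s₂ ω) :
    ∑ i ∈ range (n + 1), Ex π (fun q => cE π i (fun r => s₁ q * (s₂ r * K i q r)) q) ≤
      6100 / κ * (Real.sqrt (Ex π (fun ω => s₁ ω ^ 2)) *
        Real.sqrt (Ex π (fun ω => s₂ ω ^ 2))) := by
  classical
  have hπ := H.π_nonneg
  set K₁ : ℕ → (Fin n → L) → (Fin n → L) → ℝ := fun i q r => if i ∈ Ch r then K i q r else 0
    with hK₁
  set K₂ : ℕ → (Fin n → L) → (Fin n → L) → ℝ := fun i q r => if i ∈ Ch r then K i r q else 0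
    with hK₂
  have le₁ : ∀ i q r, K₁ i q r ≤ K i q r := by
    intro i q r
    rw [hK₁]
    simp only
    split_ifs
    · exact le_rfl
    · exact hK _ _ _
  have le₂ : ∀ i q r, K₂ i q r ≤ K i r q := by
    intro i q r
    rw [hK₂]
    simp only
    split_ifs
    · exact le_rfl
    · exact hK _ _ _
  have ne₁ : ∀ i q r, K₁ i q r ≠ 0 → i ∈ Ch r ∧ K i q r ≠ 0 := by
    intro i q r h
    rw [hK₁] at h
    simp only at h
    by_cases hc : i ∈ Ch r
    · rw [if_pos hc] at h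
      exact ⟨hc, h⟩
    · rw [if_neg hc] at h
      exact absurd rfl h
  have ne₂ : ∀ i q r, K₂ i q r ≠ 0 → i ∈ Ch r ∧ K i r q ≠ 0 := by
    intro i q r h
    rw [hK₂] at h
    simp only at h
    by_cases hc : i ∈ Ch r
    · rw [if_pos hc] at h
      exact ⟨hc, h⟩
    · rw [if_neg hc] at h
      exact absurd rfl h
  have nn₁ : ∀ i q r, 0 ≤ K₁ i q r := by
    intro i q r
    rw [hK₁]
    simp only
    split_ifs
    · exact hK _ _ _
    · exact le_rfl
  have nn₂ : ∀ i q r, 0 ≤ K₂ i q r := by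
    intro i q r
    rw [hK₂]
    simp only
    split_ifs
    · exact hK _ _ _
    · exact le_rfl
  have H₁ : KerH κ Ch Pay K₁ :=
    { nonneg := nn₁
      new := fun i q z h => (ne₁ _ _ _ h).1
      own₁ := fun i q z => (le₁ _ _ _).trans (hown₁ i q z)
      own₂ := fun i q z => (le₁ _ _ _).trans (hown₂ i q z)
      h := fun i i' q z z' h1 h2 h3 => hH₁ i i' q z z' h1 (ne₁ _ _ _ h2).2 (ne₁ _ _ _ h3).2 }
  have eq : ∀ (i : ℕ) (q z : Fin n → L), mix i q (mix i z q) = q := fun i q z => by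
    rw [mix_mix, mix_self]
  have H₂ : KerH κ Ch Pay K₂ :=
    { nonneg := nn₂
      new := fun i q z h => (ne₂ _ _ _ h).1
      own₁ := fun i q z => by
        have := hown₂ i (mix i z q) q
        rw [eq] at this
        exact (le₂ _ _ _).trans this
      own₂ := fun i q z => by
        have := hown₁ i (mix i z q) q
        rw [eq] at this
        exact (le₂ _ _ _).trans this
      h := fun i i' q z z' h1 h2 h3 => hH₂ i i' q z z' h1 (ne₂ _ _ _ h2).2 (ne₂ _ _ _ h3).2 }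
  have h₁ := half_energyH H H₁ hs₁ hs₂
  have h₂ := half_energyH H H₂ hs₂ hs₁
  have key : ∑ i ∈ range (n + 1), Ex π (fun q => cE π i (fun r => s₁ q * (s₂ r * K i q r)) q) ≤
      ∑ i ∈ range (n + 1), Ex π (fun q => cE π i (fun r => s₁ q * (s₂ r * K₁ i q r)) q) +
      ∑ i ∈ range (n + 1), Ex π (fun q => cE π i (fun r => s₂ q * (s₁ r * K₂ i q r)) q) := by
    rw [← sum_add_distrib]
    refine sum_le_sum fun i _ => ?_
    rw [pair_swap π i (fun q r => s₂ q * (s₁ r * K₂ i q r)), ← Ex_add]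
    refine Ex_mono hπ fun q => ?_
    unfold cE
    rw [← sum_add_distrib]
    refine sum_le_sum fun z _ => ?_
    beta_reduce
    have h2 : 0 ≤ Pr π z * (s₁ q * s₂ (mix i z q)) :=
      mul_nonneg (Pr_nonneg hπ z) (mul_nonneg (hs₁ _) (hs₂ _))
    have h3 : K i q (mix i z q) ≤ K₁ i q (mix i z q) + K₂ i (mix i z q) q := by
      have n1 := nn₁ i q (mix i z q)
      have n2 := nn₂ i (mix i z q) q
      rcases (hK i q (mix i z q)).eq_or_lt with h0 | h0
      · rw [← h0]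
        linarith
      · rcases hnew i q z h0.ne' with h | h
        · have : K₂ i (mix i z q) q = K i q (mix i z q) := by
            rw [hK₂]
            simp only
            rw [if_pos h]
          linarith
        · have : K₁ i q (mix i z q) = K i q (mix i z q) := by
            rw [hK₁]
            simp only
            rw [if_pos h]
          linarith
    have h4 := mul_le_mul_of_nonneg_left h3 h2
    linarith
  have e : 6100 / κ * (Real.sqrt (Ex π (fun ω => s₁ ω ^ 2)) *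
        Real.sqrt (Ex π (fun ω => s₂ ω ^ 2))) =
      3050 / κ * (Real.sqrt (Ex π (fun ω => s₁ ω ^ 2)) *
        Real.sqrt (Ex π (fun ω => s₂ ω ^ 2))) +
      3050 / κ * (Real.sqrt (Ex π (fun ω => s₂ ω ^ 2)) *
        Real.sqrt (Ex π (fun ω => s₁ ω ^ 2))) := by ring
  rw [e]
  linarith

/-- a phase which does not pay in the mass version: trivial mass minus deviations below `1 / 4` -/
theorem np_of_walk {dv : ℕ → Prop} {μ : ℕ → ℝ} (hμ : ∀ k, 0 ≤ μ k) (hμ1 : ∀ k, μ k ≤ 1) {s b : ℕ}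
    (h : ∑ k ∈ Ico s b, (open Classical in if dv k then (-1 : ℝ) else μ k) ≤ 1 / 4) :
    ms μ s b ≤ 2 * nd dv s b + 3 := by
  classical
  have h1 : ms μ s b ≤ ∑ k ∈ Ico s b, ((if dv k then (-1 : ℝ) else μ k) +
      2 * (if dv k then (1 : ℝ) else 0)) := by
    unfold ms
    refine sum_le_sum fun k _ => ?_
    have a := hμ k
    have b := hμ1 k
    split_ifs <;> linarith
  rw [sum_add_distrib, ← mul_sum] at h1
  have h2 : ∑ k ∈ Ico s b, (if dv k then (1 : ℝ) else 0) = nd dv s b := rfl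
  rw [h2] at h1
  linarith

end Vale.P028.RK
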